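import Crest.Agent.X212.Rw22.Defs
import Crest.Agent.X212.Bor5.Top

/-!
# Row 212, layer S (helper22): the two halves of the seam
-/

set_option autoImplicit false

noncomputable section

namespace Crest.Agent.X212.Rw22

open Bor5 Win22 Ext52 Nrm38

/-- the geometric half of the seam -/
def InStmt : Prop := ∀ k : KD, ¬k.thick.IsUnknot → ∃ D : In, NVH (D.A ⟨(1, 4), sl14⟩) ∧
  (∀ p q q' (h : Sl p q) (h' : Sl p q'), 0 < p → Cos k p q q' →
    Nonempty (HIso (D.A ⟨(p, q), h⟩) (D.A ⟨(p, q'), h'⟩))) ∧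
  ∀ p q s (h : Sl p q) (h' : Sl p s), 0 < p → 0 < s → Cos k p q (-s) →
    Nonempty (HIso (D.A ⟨(p, q), h⟩) (D.A ⟨(-p, s), h'.neg⟩))

/-- the algebraic half of the seam -/
def AlgStmt : Prop := InStmt → Sys0Stmt

end Crest.Agent.X212.Rw22
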