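import Crest.Agent.X212.Rw22.Fam

/-!
# Row 212, layer S (helper22): triads, blow-up and reflection in terms of `κ`
-/

set_option autoImplicit false

open Module Function

noncomputable section

namespace Crest.Agent.X212.Rw22

open Bor5 Win22
open Bor5.Fam (Ch)

namespace Tr

variable {a b c : Z2} {σ τ : ℤ} (T : Tr a b c σ τ)
include T

theorem rot : Tr b c a τ (-(τ * σ)) := by
  obtain ⟨h1, h2, rfl, h4⟩ := T
  refine ⟨h2, (h2.mul h1).neg, ?_, ?_⟩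
  · rcases h1 with rfl | rfl <;> rcases h2 with rfl | rfl <;> simp
  · simp only [dt, Prod.smul_fst, Prod.smul_snd, Prod.fst_add, Prod.snd_add, smul_eq_mul] at h4 ⊢
    linear_combination h4

theorem dt_eq : dt a b = σ := by
  have h := T.2.2.2
  simp only [dt, Prod.smul_fst, Prod.smul_snd, smul_eq_mul] at h ⊢
  linear_combination σ * h - (a.1 * b.2 - a.2 * b.1) * T.1.sq

theorem uni : Uni a b := by
  rw [Uni, T.dt_eq]
  exact T.1

theorem dot_eq (δ : Z2) : dot δ b = σ * dot δ a + τ * dot δ c := by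
  rw [← T.2.2.1, dot_add, dot_smul, dot_smul]

end Tr

namespace Lb.Spec

variable {I : Type} {S : Set I} {v : I → Z2} {δ : Z2} {L : I → Type} {B : Lb S v δ L}
  {A : ∀ i, Hf (L i)} {R : Rod S v δ A} {a b c : I} {σ τ η₁ η₂ η₃ : ℤ}

theorem F' {f : Fam (B.ob A a) (B.ob A b)} (h : B.Spec R a b η₁ f) {m m' κ : ℤ}
    (h1 : Even (m + R.ε a)) (h2 : Even (m' + R.ε b)) (e : κ = η₁ * kp δ (v a) (v b) m m') :
    f.F κ = R.F (R.c2 a b m m') := e ▸ h.F m m' h1 h2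

theorem s' {f : Fam (B.ob A a) (B.ob A b)} (h : B.Spec R a b η₁ f) {m m' κ : ℤ}
    (h1 : Even (m + R.ε a)) (h2 : Even (m' + R.ε b)) (e : κ = η₁ * kp δ (v a) (v b) m m') :
    f.s κ = (B.φ a).symm (R.cl a m) := e ▸ h.s m m' h1 h2

theorem t' {f : Fam (B.ob A a) (B.ob A b)} (h : B.Spec R a b η₁ f) {m m' κ : ℤ}
    (h1 : Even (m + R.ε a)) (h2 : Even (m' + R.ε b)) (e : κ = η₁ * kp δ (v a) (v b) m m') :
    f.t κ = (B.φ b).symm (R.cl b m') := e ▸ h.t m m' h1 h2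

theorem adm (e1 : Eg S v a b) (e2 : Eg S v b c) (T : Tr (v a) (v b) (v c) σ τ) {x y e : ℤ}
    (B : Lb S v δ L) (hx : Even (x + R.ε a)) (hy : Even (y + R.ε c)) (he : Odd e) :
    Even (σ * x + τ * y + e + R.ε b) := by
  obtain ⟨i, hi⟩ := T.1.even hx
  obtain ⟨j, hj⟩ := T.2.1.even hy
  obtain ⟨k, hk⟩ := R.par3 B e1 e2 ⟨e2.r, e1.l, T.rot.rot.uni⟩ T.1 T.2.1 T.2.2.1
  obtain ⟨n, hn⟩ := he
  exact ⟨i + j + k + n - R.ε a - R.ε c, by linarith⟩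

/-- blow-up -/
theorem bu {f₁ : Fam (B.ob A a) (B.ob A b)} {f₂ : Fam (B.ob A b) (B.ob A c)}
    {f₃ : Fam (B.ob A a) (B.ob A c)} (h₁ : B.Spec R a b η₁ f₁) (h₂ : B.Spec R b c η₂ f₂)
    (h₃ : B.Spec R a c η₃ f₃) (T : Tr (v a) (v b) (v c) σ τ) {e κ κ₁ κ₂ : ℤ} (he : Sg e)
    (e1 : κ₁ = η₁ * (τ * η₃ * κ - e * dot δ (v a))) (e2 : κ₂ = η₂ * (σ * η₃ * κ + e * dot δ (v c))) :
    f₂.F κ₂ ∘ₗ f₁.F κ₁ = f₃.F κ := by
  have hD := T.dot_eq δ
  by_cases hκ : Even (κ + dot δ (v a) * dot δ (v c))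
  · obtain ⟨x, y, hx, hy, rfl⟩ := h₃.ex hκ
    have hb := adm h₁.e h₂.e T B hx hy (e := e) (by rcases he with rfl | rfl <;> decide)
    rw [h₁.F' hx hb, h₂.F' hb hy, h₃.F x y hx hy]
    · exact R.bu a h₁.e.l b h₁.e.r c h₂.e.r σ τ T x _ y e he hx hb hy rfl
    · rw [e2, kp, kp, hD]
      linear_combination η₂ * σ * (x * dot δ (v c) - y * dot δ (v a)) * h₃.sg.sq
    · rw [e1, kp, kp, hD]
      linear_combination η₁ * τ * (x * dot δ (v c) - y * dot δ (v a)) * h₃.sg.sq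
  · rw [h₃.z κ hκ, h₁.z κ₁, LinearMap.comp_zero]
    intro h
    apply hκ
    rw [e1, hD] at h
    obtain ⟨k, hk⟩ := h
    obtain ⟨k1, a1⟩ := h₁.sg.even (m := τ * η₃ * κ - e * dot δ (v a)) ⟨_, rfl⟩
    obtain ⟨k2, a2⟩ := (T.2.1.mul h₃.sg).even (m := κ) ⟨_, rfl⟩
    obtain ⟨k3, a3⟩ := he.even (m := dot δ (v a)) ⟨_, rfl⟩
    obtain ⟨k4, a4⟩ := T.1.even (m := dot δ (v a) * dot δ (v a)) ⟨_, rfl⟩
    obtain ⟨k5, a5⟩ := T.2.1.even (m := dot δ (v a) * dot δ (v c)) ⟨_, rfl⟩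
    obtain ⟨k6, a6⟩ := Int.even_mul_succ_self (dot δ (v a))
    exact ⟨k - k1 + k2 - k3 - k4 - k5 + k6 + dot δ (v a) * dot δ (v c), by
      linear_combination hk - a1 + a2 - a3 - a4 - a5 + a6⟩

/-- a triad -/
theorem tri {g : ℤ} {f₁ : Fam (B.ob A a) (B.ob A b)} {f₂ : Fam (B.ob A b) (B.ob A c)}
    {f₃ : Fam (B.ob A c) (B.ob A a)} (T : Tr (v a) (v b) (v c) σ τ)
    (hs : 0 < σ * dot δ (v a) * (τ * dot δ (v c))) (hg : Sg g) (h₁ : B.Spec R a b (g * σ) f₁)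
    (h₂ : B.Spec R b c (g * τ) f₂) (h₃ : B.Spec R c a (g * σ * τ) f₃) : Tri f₁ f₂ f₃ := by
  have hD := T.dot_eq δ
  have s1 := T.1.sq
  have s2 := T.2.1.sq
  have s3 := hg.sq
  obtain ⟨ρ, hρ, Pa, Pc, Pb⟩ : ∃ ρ, Sg ρ ∧ (B.P a : ℤ) = ρ * (σ * dot δ (v a)) ∧
      (B.P c : ℤ) = ρ * (τ * dot δ (v c)) ∧ (B.P b : ℤ) = ρ * dot δ (v b) := by
    have ea : (B.P a : ℤ) = |σ * dot δ (v a)| := by
      rw [B.hP a h₁.e.l, Int.natCast_natAbs]
      rcases T.1 with rfl | rfl <;> simp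
    have ec : (B.P c : ℤ) = |τ * dot δ (v c)| := by
      rw [B.hP c h₂.e.r, Int.natCast_natAbs]
      rcases T.2.1 with rfl | rfl <;> simp
    have eb : (B.P b : ℤ) = |dot δ (v b)| := by rw [B.hP b h₁.e.r, Int.natCast_natAbs]
    rcases pos_and_pos_or_neg_and_neg_of_mul_pos hs with ⟨x, y⟩ | ⟨x, y⟩
    · exact ⟨1, sg_one, by rw [ea, abs_of_pos x, one_mul], by rw [ec, abs_of_pos y, one_mul],
        by rw [eb, abs_of_pos (by linarith), one_mul]⟩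
    · exact ⟨-1, sg_one.neg, by rw [ea, abs_of_neg x, neg_one_mul],
        by rw [ec, abs_of_neg y, neg_one_mul], by rw [eb, abs_of_neg (by linarith), neg_one_mul]⟩
  have s4 := hρ.sq
  have odd : ∀ e, Odd e → Odd (g * ρ * e) := fun e he => by
    rcases hg with rfl | rfl <;> rcases hρ with rfl | rfl <;> simpa using he
  have tot : ∀ {x y z : I} {σ' τ' η η' : ℤ} {f : Fam (B.ob A x) (B.ob A y)}
      {f' : Fam (B.ob A y) (B.ob A z)}, B.Spec R x y η f → B.Spec R y z η' f' →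
      Tr (v x) (v y) (v z) σ' τ' → Exact f.tot f'.tot := fun h h' T' => by
    rw [show ⇑(Fam.tot _) = _ from funext h.tot, show ⇑(Fam.tot _) = _ from funext h'.tot]
    exact R.ex _ h.e.l _ h.e.r _ h'.e.r _ _ T'
  refine ⟨?_, h₁.isNeg ?_, h₂.isNeg ?_, h₃.isPos ?_, tot h₁ h₂ T, tot h₂ h₃ T.rot,
    tot h₃ h₁ T.rot.rot, fun κ e hκ he => ?_, fun μ e he => ?_⟩
  · have : (B.P b : ℤ) = B.P a + B.P c := by rw [Pa, Pb, Pc, hD]; ring
    exact_mod_cast this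
  · rw [sq, T.dt_eq, hD]
    nlinarith [mul_self_nonneg (σ * dot δ (v a))]
  · rw [sq, T.rot.dt_eq, hD]
    nlinarith [mul_self_nonneg (τ * dot δ (v c))]
  · rw [sq, T.rot.rot.dt_eq]
    nlinarith
  · obtain ⟨z, x, hz, hx, e0⟩ := h₃.ex ((B.ch_iff h₃.e).1 (Fam.ch_neg.2 hκ))
    rw [h₃.t' hz hx e0.symm, h₁.s' hx (adm h₁.e h₂.e T B hx hz (odd e he))]
    rw [show κ = -(g * σ * τ * kp δ (v c) (v a) z x) by rw [e0, neg_neg], Pa, kp, kp, hD]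
    linear_combination (ρ * σ * e * dot δ (v a)) * s3
  · by_cases hκ : Even (e * B.P c - μ + dot δ (v c) * dot δ (v a))
    · obtain ⟨z, x, hz, hx, e0⟩ := h₃.ex hκ
      have hy := adm h₁.e h₂.e T B hx hz (odd e he)
      have hx' : Even (x + 2 * σ * (g * ρ * e) + R.ε a) := by
        obtain ⟨k, hk⟩ := hx
        exact ⟨k + σ * (g * ρ * e), by linarith⟩
      have hμ : μ = e * B.P c - g * σ * τ * kp δ (v c) (v a) z x := by rw [e0]; ring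
      rw [h₃.F' hz hx e0.symm, h₁.F' hx hy, h₃.F' hz hx', h₁.F' hx' hy]
      · refine R.refl c h₃.e.l a h₃.e.r b h₁.e.r h₃.e.u _ _ 1 2 T.rot.rot.1 T.rot.rot.2.1 rfl
          (T.rot.rot.2.2.1.trans (one_smul _ _).symm) z x _ _ hz hx hx' hy ?_
        linear_combination (-2 * x - 2 * σ * τ * z - 2 * σ * (g * ρ * e) - 2 * x * (σ * σ - 1)) * s2
          - 2 * x * s1
      · rw [hμ, Pb, Pc, kp, kp, hD]
        linear_combination (-(ρ * e * σ * dot δ (v a)) - 2 * ρ * e * τ * dot δ (v c)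
          + 2 * ρ * e * (σ * dot δ (v a) + τ * dot δ (v c)) * (1 - σ * σ)) * s3
          - 2 * ρ * e * (σ * dot δ (v a) + τ * dot δ (v c)) * s1
      · rw [hμ, Pc, kp, kp]
        linear_combination (2 * ρ * e * τ * dot δ (v c) * σ * σ) * s3 +
          2 * ρ * e * τ * dot δ (v c) * s1
      · rw [hμ, Pb, Pc, kp, kp, hD]
        linear_combination (ρ * σ * e * dot δ (v a)) * s3
    · rw [h₃.z _ hκ, h₃.z (-e * B.P c - μ), LinearMap.comp_zero, LinearMap.comp_zero]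
      rintro ⟨k, hk⟩
      exact hκ ⟨k + e * B.P c, by linarith⟩

end Lb.Spec

end Crest.Agent.X212.Rw22
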