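import Crest.Agent.X212.Win22.Ob
import Crest.Agent.X212.Bor5.Props

/-!
# Row 212, layer S (helper22): the rod theory of one exterior

Vertices `i` carry a rod vector `v i` and a module `A i`; classes are named by the ORDERS `m` of the
determinant line along the rods.  `δ` is the character of the exterior, `|dot δ (v i)| = |H₁|`.
Convention: the one-vertex word `(a, b)` has a generator of square `sq = - dt a b * δ a * δ b`.
-/

set_option autoImplicit false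

open Module Function

noncomputable section

namespace Crest.Agent.X212.Rw22

open Bor5 Win22

/-- rod vectors -/
abbrev Z2 : Type := ℤ × ℤ

/-- the determinant (`Rod53.dt`) -/
def dt (a b : Z2) : ℤ := a.1 * b.2 - a.2 * b.1

/-- the pairing (`Line51.dot`) -/
def dot (η a : Z2) : ℤ := η.1 * a.1 + η.2 * a.2

/-- a basis (`Rod53.Uni`) -/
def Uni (a b : Z2) : Prop := dt a b = 1 ∨ dt a b = -1

/-- a sign -/
def Sg (σ : ℤ) : Prop := σ = 1 ∨ σ = -1

/-- the square of the generator on the word `(a, b)` -/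
def sq (δ a b : Z2) : ℤ := -dt a b * dot δ a * dot δ b

/-- the value of the class with orders `m`, `m'` on the generator -/
def kp (δ a b : Z2) (m m' : ℤ) : ℤ := m * dot δ b - m' * dot δ a

/-- the degree `(c² - 2 χ - 3 σ) / 4` -/
def dgk (s κ : ℤ) : ℚ := ((κ : ℚ) ^ 2 / s - 2 - 3 * (Int.sign s : ℤ)) / 4

/-- in the word `(a, b, c)` the middle sphere has square `-1` -/
def Tr (a b c : Z2) (σ τ : ℤ) : Prop := Sg σ ∧ Sg τ ∧ σ • a + τ • c = b ∧ dt (σ • a) b = 1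

/-- only towers, with bottoms `D` -/
def Pure {L : Type} (X : Hf L) (D : L → ℚ) : Prop :=
  (∀ s (k : ℕ), finrank K (X.gr s (D s + 2 * k)) = 1 ∧
    ∀ y ∈ X.gr s (D s + 2 * k + 2), X.U y = 0 → y = 0) ∧
  ∀ s x, (¬∃ k : ℕ, x = D s + 2 * k) → X.gr s x = ⊥

/-- a graded isomorphism -/
structure HIso {L L' : Type} (X : Hf L) (Y : Hf L') where
  g : X.H ≃ₗ[K] Y.H
  τ : L ≃ L'
  map : ∀ s x, ∀ y ∈ X.gr s x, g y ∈ Y.gr (τ s) x
  U : ∀ y, g (X.U y) = Y.U (g y)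

/-- The theory of one exterior on the vertex set `S`. -/
structure Rod {I : Type} (S : Set I) (v : I → Z2) (δ : Z2) {L : I → Type} (A : ∀ i, Hf (L i)) :
    Type 1 where
  /-- parity of the orders that occur -/
  ε : I → ℤ
  /-- the class on the filling `i` with order `m` -/
  cl : ∀ i, ℤ → L i
  cl_surj : ∀ i ∈ S, ∀ s, ∃ m, Even (m + ε i) ∧ cl i m = s
  cl_eq : ∀ i ∈ S, ∀ m n, Even (m + ε i) → Even (n + ε i) →
    (cl i m = cl i n ↔ 2 * dot δ (v i) ∣ m - n)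
  /-- the classes on the word `(a, b)` -/
  C : I → I → Type
  c2 : ∀ a b, ℤ → ℤ → C a b
  F : ∀ {a b}, C a b → (A a).H →ₗ[K] (A b).H
  c2_surj : ∀ a ∈ S, ∀ b ∈ S, Uni (v a) (v b) → ∀ d, ∃ m m', Even (m + ε a) ∧ Even (m' + ε b) ∧
    c2 a b m m' = d
  c2_eq : ∀ a ∈ S, ∀ b ∈ S, Uni (v a) (v b) → ∀ m m' n n', Even (m + ε a) → Even (m' + ε b) →
    Even (n + ε a) → Even (n' + ε b) → (c2 a b m m' = c2 a b n n' ↔
      ∃ k, m - n = 2 * k * dot δ (v a) ∧ m' - n' = 2 * k * dot δ (v b))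
  /-- DEG -/
  map : ∀ a ∈ S, ∀ b ∈ S, Uni (v a) (v b) → ∀ m m', Even (m + ε a) → Even (m' + ε b) → ∀ x,
    ∀ y ∈ (A a).gr (cl a m) x, F (c2 a b m m') y ∈
      (A b).gr (cl b m') (x + dgk (sq δ (v a) (v b)) (kp δ (v a) (v b) m m'))
  off : ∀ a ∈ S, ∀ b ∈ S, Uni (v a) (v b) → ∀ m m', Even (m + ε a) → Even (m' + ε b) → ∀ s x,
    s ≠ cl a m → ∀ y ∈ (A a).gr s x, F (c2 a b m m') y = 0
  U : ∀ a ∈ S, ∀ b ∈ S, Uni (v a) (v b) → ∀ (d : C a b) y, F d ((A a).U y) = (A b).U (F d y)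
  fin : ∀ a ∈ S, ∀ b ∈ S, Uni (v a) (v b) → ∀ y, (support fun d : C a b => F d y).Finite
  /-- (T) -/
  neg : ∀ a ∈ S, ∀ b ∈ S, Uni (v a) (v b) → sq δ (v a) (v b) < 0 → ∀ m m', Even (m + ε a) →
    Even (m' + ε b) → ∃ N, ∀ x, N ≤ x → ∀ y ∈ (A a).gr (cl a m) x, F (c2 a b m m') y = 0 → y = 0
  pos : ∀ a ∈ S, ∀ b ∈ S, Uni (v a) (v b) → 0 < sq δ (v a) (v b) → ∀ m m', Even (m + ε a) →
    Even (m' + ε b) → ∃ N, ∀ x, N ≤ x → ∀ y ∈ (A a).gr (cl a m) x, F (c2 a b m m') y = 0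
  /-- blow-up, `K · E = ∓1` -/
  bu : ∀ a ∈ S, ∀ b ∈ S, ∀ c ∈ S, ∀ σ τ, Tr (v a) (v b) (v c) σ τ → ∀ ma mb mc e, Sg e →
    Even (ma + ε a) → Even (mb + ε b) → Even (mc + ε c) → mb = σ * ma + τ * mc + e →
    F (c2 b c mb mc) ∘ₗ F (c2 a b ma mb) = F (c2 a c ma mc)
  /-- reflection in the middle sphere (`Tau19.exists_uni_wd`) -/
  refl : ∀ a ∈ S, ∀ b ∈ S, ∀ c ∈ S, Uni (v a) (v b) → ∀ σ τ n e, Sg σ → Sg τ → n * e = 2 →
    σ • v a + τ • v c = n • v b → ∀ ma mb mb' mc, Even (ma + ε a) → Even (mb + ε b) →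
    Even (mb' + ε b) → Even (mc + ε c) → mb' = -mb + e * (σ * ma + τ * mc) →
    F (c2 b c mb mc) ∘ₗ F (c2 a b ma mb) = F (c2 b c mb' mc) ∘ₗ F (c2 a b ma mb')
  /-- TRIAD -/
  ex : ∀ a ∈ S, ∀ b ∈ S, ∀ c ∈ S, ∀ σ τ, Tr (v a) (v b) (v c) σ τ →
    Exact (fun y => ∑ᶠ d : C a b, F d y) fun y => ∑ᶠ d : C b c, F d y

/-- slopes `(p, q)` -/
abbrev Vx : Type := {x : ℤ × ℤ // Sl x.1 x.2}

/-- the rod of the slope `p / q` is `(q, p)`; the character is `(0, 1)` -/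
def vK (i : Vx) : Z2 := (i.1.2, i.1.1)

/-- shear lines `(q, r)` -/
abbrev Ln : Type := {x : ℤ × ℤ // 2 ≤ x.1 ∧ 0 ≤ x.2 ∧ x.2 < x.1 ∧ IsCoprime x.2 x.1}

/-- the vertices of a line: the slopes `p / q` with `p % q = r`, and the third filling -/
def SL (l : Ln) : Set (Option Vx) :=
  {o | ∀ i, o = some i → i.1.2 = l.1.1 ∧ i.1.1 % l.1.1 = l.1.2}

/-- their rods over the meridian tube in the filling `r / q` -/
def vL (l : Ln) : Option Vx → Z2
  | none => (1, 0)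
  | some i => (-(i.1.1 / l.1.1), 1)

/-- the character of a line -/
def δL (l : Ln) : Z2 := (-l.1.1, l.1.2)

/-- classes at the vertices of a line -/
def extL (L : Vx → Type) (L₀ : Type) : Option Vx → Type
  | none => L₀
  | some i => L i

/-- modules at the vertices of a line -/
def extA {L : Vx → Type} (A : ∀ i, Hf (L i)) {L₀ : Type} (Λ : Hf L₀) : ∀ o, Hf (extL L L₀ o)
  | none => Λ
  | some i => A i

/-- the exterior of the knot -/
structure InK : Type 1 where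
  L : Vx → Type
  A : ∀ i, Hf (L i)
  R : Rod Set.univ vK (0, 1) A
  sph : ∀ i, i.1.2 = 0 → Pure (A i) fun _ => 0

/-- ... and the exteriors of the meridians -/
structure In : Type 1 extends InK where
  L₀ : Ln → Type
  Λ : ∀ l, Hf (L₀ l)
  pure : ∀ l, ∃ D, Pure (Λ l) D
  R' : ∀ l, Rod (SL l) (vL l) (δL l) (extA A (Λ l))
  /-- the core of the meridian tube is `± q` times the core of the filling -/
  link : ∀ l, ∃ η, Sg η ∧ ∀ i, some i ∈ SL l → ∀ m m', Even (m + R.ε i) →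
    Even (m' + (R' l).ε (some i)) → (R' l).cl (some i) m' = R.cl i m →
    (R' l).cl (some i) (m' + 2) = R.cl i (m + 2 * η * l.1.1)

/-- non-vanishing data for a module -/
def NVH {L : Type} (A : Hf L) : Prop := ∃ X : Ob, Nonempty (NVD X) ∧
  ∀ (P : ℕ) (hP : 0 < P) (φ : ZMod P ≃ L), Nonempty (Iso X (A.ob hP φ))

end Crest.Agent.X212.Rw22
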