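import Crest.Agent.X212.Rw22.Defs
import Crest.Agent.X212.Bor5.Api

/-!
# Row 212, layer S (helper22): families and triads of a rod theory
-/

set_option autoImplicit false

open Module Function

noncomputable section

namespace Crest.Agent.X212.Rw22

open Bor5 Win22
open Bor5.Fam (Ch)

theorem Sg.sq {σ : ℤ} (h : Sg σ) : σ * σ = 1 := by rcases h with rfl | rfl <;> rfl

theorem Sg.mul {σ τ : ℤ} (h : Sg σ) (h' : Sg τ) : Sg (σ * τ) := by
  rcases h with rfl | rfl <;> rcases h' with rfl | rfl <;> simp [Sg]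

theorem Sg.neg {σ : ℤ} (h : Sg σ) : Sg (-σ) := by rcases h with rfl | rfl <;> simp [Sg]

theorem sg_one : Sg 1 := .inl rfl

theorem Sg.even {σ : ℤ} (h : Sg σ) {m e : ℤ} (hm : Even (m + e)) : Even (σ * m + e) := by
  rcases h with rfl | rfl
  · rwa [one_mul]
  · obtain ⟨k, hk⟩ := hm
    exact ⟨k - m, by linarith⟩

theorem Uni.symm {a b : Z2} (h : Uni a b) : Uni b a := by
  unfold Uni dt at *
  rcases h with h | h
  · right; linarith
  · left; linarith

theorem dot_smul (δ a : Z2) (σ : ℤ) : dot δ (σ • a) = σ * dot δ a := by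
  simp only [dot, Prod.smul_fst, Prod.smul_snd, smul_eq_mul]
  ring

theorem dot_add (δ a b : Z2) : dot δ (a + b) = dot δ a + dot δ b := by
  simp only [dot, Prod.fst_add, Prod.snd_add]
  ring

theorem Uni.cop {δ a b : Z2} (hδ : IsCoprime δ.1 δ.2) (h : Uni a b) :
    IsCoprime (dot δ a) (dot δ b) := by
  obtain ⟨u, w, e⟩ := hδ
  have h2 : dt a b * dt a b = 1 := Sg.sq h
  refine ⟨dt a b * (u * b.2 - w * b.1), dt a b * (w * a.1 - u * a.2), ?_⟩
  rw [← h2]
  simp only [dot, dt]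
  linear_combination (a.1 * b.2 - a.2 * b.1) * (a.1 * b.2 - a.2 * b.1) * e

theorem par3_aux {a b c x y z : ℤ} (hc : Even (z + x + y)) (cop : ¬(Even x ∧ Even y))
    (h1 : Even (a * z - c * x + x * z)) (h2 : Even (c * y - b * z + z * y))
    (h3 : Even (b * x - a * y + y * x)) : Even (a + b + c + 1) := by
  simp only [← ZMod.intCast_eq_zero_iff_even] at *
  push_cast at *
  generalize (a : ZMod 2) = a, (b : ZMod 2) = b, (c : ZMod 2) = c, (x : ZMod 2) = x,
    (y : ZMod 2) = y, (z : ZMod 2) = z at *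
  rcases k_cases a with rfl | rfl <;> rcases k_cases b with rfl | rfl <;>
    rcases k_cases c with rfl | rfl <;> rcases k_cases x with rfl | rfl <;>
    rcases k_cases y with rfl | rfl <;> rcases k_cases z with rfl | rfl <;>
    revert hc cop h1 h2 h3 <;> decide

/-- the standing assumptions on the rods, and labels of the classes -/
structure Lb {I : Type} (S : Set I) (v : I → Z2) (δ : Z2) (L : I → Type) where
  cop : IsCoprime δ.1 δ.2
  ne : ∀ i ∈ S, dot δ (v i) ≠ 0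
  P : I → ℕ
  pos : ∀ i, 0 < P i
  hP : ∀ i ∈ S, P i = (dot δ (v i)).natAbs
  φ : ∀ i, ZMod (P i) ≃ L i

/-- an edge -/
structure Eg {I : Type} (S : Set I) (v : I → Z2) (a b : I) : Prop where
  l : a ∈ S
  r : b ∈ S
  u : Uni (v a) (v b)

theorem Eg.symm {I : Type} {S : Set I} {v : I → Z2} {a b : I} (e : Eg S v a b) : Eg S v b a :=
  ⟨e.r, e.l, e.u.symm⟩

namespace Rod

variable {I : Type} {S : Set I} {v : I → Z2} {δ : Z2} {L : I → Type} {A : ∀ i, Hf (L i)}
  (R : Rod S v δ A) {a b c : I}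

/-- degrees along a negative edge, modulo two -/
theorem w_neg (e : Eg S v a b) (h : sq δ (v a) (v b) < 0) {m m' : ℤ} (h1 : Even (m + R.ε a))
    (h2 : Even (m' + R.ε b)) : ∃ k : ℤ, (A b).w (R.cl b m') = (A a).w (R.cl a m) +
      dgk (sq δ (v a) (v b)) (kp δ (v a) (v b) m m') + 2 * k :=
  (A a).par_of_inj _ _ _ _ (R.map a e.l b e.r e.u m m' h1 h2) (R.neg a e.l b e.r e.u h m m' h1 h2)

theorem par_neg (e : Eg S v a b) (h : sq δ (v a) (v b) < 0) {m m' : ℤ} (h1 : Even (m + R.ε a))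
    (h2 : Even (m' + R.ε b)) : Even (kp δ (v a) (v b) m m' + dot δ (v a) * dot δ (v b)) := by
  have h1' : Even (m + 2 * dot δ (v a) + R.ε a) := by
    obtain ⟨k, hk⟩ := h1
    exact ⟨k + dot δ (v a), by linarith⟩
  obtain ⟨k, hk⟩ := R.w_neg e h h1 h2
  obtain ⟨k', hk'⟩ := R.w_neg e h h1' h2
  rw [(R.cl_eq a e.l _ _ h1' h1).2 ⟨1, by ring⟩, hk] at hk'
  have hs : (sq δ (v a) (v b) : ℚ) ≠ 0 := by exact_mod_cast h.ne
  have hd : dt (v a) (v b) * dt (v a) (v b) = 1 := Sg.sq e.u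
  have e1 : ((kp δ (v a) (v b) (m + 2 * dot δ (v a)) m' : ℤ) : ℚ) ^ 2 =
      (kp δ (v a) (v b) m m' : ℚ) ^ 2 - 4 * sq δ (v a) (v b) *
        (dt (v a) (v b) * (kp δ (v a) (v b) m m' + dot δ (v a) * dot δ (v b))) := by
    have : kp δ (v a) (v b) (m + 2 * dot δ (v a)) m' ^ 2 = kp δ (v a) (v b) m m' ^ 2 -
        4 * sq δ (v a) (v b) *
        (dt (v a) (v b) * (kp δ (v a) (v b) m m' + dot δ (v a) * dot δ (v b))) := by
      simp only [kp, sq]
      linear_combination (-4 * dot δ (v a) * dot δ (v b) * (m * dot δ (v b) - m' * dot δ (v a) +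
        dot δ (v a) * dot δ (v b))) * hd
    exact_mod_cast this
  have e2 : ((dt (v a) (v b) * (kp δ (v a) (v b) m m' + dot δ (v a) * dot δ (v b)) : ℤ) : ℚ) =
      2 * (k' - k) := by
    simp only [dgk, e1, sub_div, mul_assoc (4 : ℚ), mul_div_assoc (4 : ℚ),
      mul_div_cancel_left₀ _ hs] at hk'
    push_cast
    linarith
  have e3 : dt (v a) (v b) * (kp δ (v a) (v b) m m' + dot δ (v a) * dot δ (v b)) =
      2 * (k' - k) := by exact_mod_cast e2
  exact ⟨dt (v a) (v b) * (k' - k), by linear_combination dt (v a) (v b) * e3 -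
    (kp δ (v a) (v b) m m' + dot δ (v a) * dot δ (v b)) * hd⟩

variable (B : Lb S v δ L)
include B

theorem sq_ne (e : Eg S v a b) : sq δ (v a) (v b) ≠ 0 :=
  mul_ne_zero (mul_ne_zero (by rcases e.u with h | h <;> simp [h]) (B.ne a e.l)) (B.ne b e.r)

/-- edge parity -/
theorem par (e : Eg S v a b) {m m' : ℤ} (h1 : Even (m + R.ε a)) (h2 : Even (m' + R.ε b)) :
    Even (kp δ (v a) (v b) m m' + dot δ (v a) * dot δ (v b)) := by
  rcases lt_or_gt_of_ne (sq_ne B e) with h | h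
  · exact R.par_neg e h h1 h2
  · obtain ⟨k, hk⟩ := R.par_neg e.symm (by
      have : sq δ (v b) (v a) = -sq δ (v a) (v b) := by simp only [sq, dt]; ring
      linarith) h2 h1
    exact ⟨dot δ (v a) * dot δ (v b) - k, by simp only [kp] at hk ⊢; linarith⟩

theorem par3 (e1 : Eg S v a b) (e2 : Eg S v b c) (e3 : Eg S v c a) {σ τ : ℤ} (hσ : Sg σ)
    (hτ : Sg τ) (h : σ • v a + τ • v c = v b) : Even (R.ε a + R.ε c + R.ε b + 1) := by
  have hD : dot δ (v b) = σ * dot δ (v a) + τ * dot δ (v c) := by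
    rw [← h, dot_add, dot_smul, dot_smul]
  refine par3_aux (x := dot δ (v a)) (y := dot δ (v c)) (z := dot δ (v b)) ?_ ?_
    (R.par B e1 ⟨_, rfl⟩ ⟨_, rfl⟩) (R.par B e2 ⟨_, rfl⟩ ⟨_, rfl⟩) (R.par B e3 ⟨_, rfl⟩ ⟨_, rfl⟩)
  · have := (hσ.even (⟨_, rfl⟩ : Even (dot δ (v a) + dot δ (v a)))).add
      (hτ.even (⟨_, rfl⟩ : Even (dot δ (v c) + dot δ (v c))))
    rwa [show σ * dot δ (v a) + dot δ (v a) + (τ * dot δ (v c) + dot δ (v c)) =
      dot δ (v b) + dot δ (v a) + dot δ (v c) by rw [hD]; ring] at this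
  · rintro ⟨⟨x, hx⟩, y, hy⟩
    obtain ⟨u, w, huw⟩ := e3.u.cop B.cop
    rw [hx, hy] at huw
    have : 2 * (u * y + w * x) = 1 := by linarith
    omega

theorem exists_kp (e : Eg S v a b) {κ : ℤ} (h : Even (κ + dot δ (v a) * dot δ (v b))) :
    ∃ m m', Even (m + R.ε a) ∧ Even (m' + R.ε b) ∧ kp δ (v a) (v b) m m' = κ := by
  obtain ⟨x, hx⟩ := h
  obtain ⟨y, hy⟩ := R.par B e (⟨_, rfl⟩ : Even (R.ε a + R.ε a)) (⟨_, rfl⟩ : Even (R.ε b + R.ε b))
  obtain ⟨u, w, huw⟩ := e.u.cop B.cop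
  refine ⟨R.ε a + 2 * (x - y) * w, R.ε b - 2 * (x - y) * u, ⟨R.ε a + (x - y) * w, by ring⟩,
    ⟨R.ε b - (x - y) * u, by ring⟩, ?_⟩
  simp only [kp] at hy ⊢
  linear_combination hy - hx + 2 * (x - y) * huw

theorem cl_iff (e : Eg S v a b) {m m' n n' : ℤ} (h1 : Even (m + R.ε a)) (h2 : Even (m' + R.ε b))
    (h3 : Even (n + R.ε a)) (h4 : Even (n' + R.ε b)) : R.cl a m = R.cl a n ↔
      2 * dot δ (v a) ∣ kp δ (v a) (v b) m m' - kp δ (v a) (v b) n n' := by
  rw [R.cl_eq a e.l _ _ h1 h3]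
  obtain ⟨x, hx⟩ : ∃ x, m - n = 2 * x := by
    obtain ⟨i, h1⟩ := h1; obtain ⟨j, h3⟩ := h3; exact ⟨i - j, by linear_combination h1 - h3⟩
  obtain ⟨y, hy⟩ : ∃ y, m' - n' = 2 * y := by
    obtain ⟨i, h1⟩ := h2; obtain ⟨j, h3⟩ := h4; exact ⟨i - j, by linear_combination h1 - h3⟩
  have e1 : kp δ (v a) (v b) m m' - kp δ (v a) (v b) n n' =
      2 * (x * dot δ (v b) - y * dot δ (v a)) := by
    simp only [kp]
    linear_combination dot δ (v b) * hx - dot δ (v a) * hy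
  rw [hx, e1, mul_dvd_mul_iff_left two_ne_zero, mul_dvd_mul_iff_left two_ne_zero,
    dvd_sub_left (dvd_mul_left _ _)]
  exact ⟨fun h => h.mul_right _, (e.u.cop B.cop).dvd_of_dvd_mul_right⟩

theorem cl_iff' (e : Eg S v a b) {m m' n n' : ℤ} (h1 : Even (m + R.ε a)) (h2 : Even (m' + R.ε b))
    (h3 : Even (n + R.ε a)) (h4 : Even (n' + R.ε b)) : R.cl b m' = R.cl b n' ↔
      2 * dot δ (v b) ∣ kp δ (v a) (v b) m m' - kp δ (v a) (v b) n n' := by
  rw [R.cl_iff B e.symm h2 h1 h4 h3, ← dvd_neg]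
  congr! 1
  simp only [kp]
  ring

theorem c2_iff (e : Eg S v a b) {m m' n n' : ℤ} (h1 : Even (m + R.ε a)) (h2 : Even (m' + R.ε b))
    (h3 : Even (n + R.ε a)) (h4 : Even (n' + R.ε b)) : R.c2 a b m m' = R.c2 a b n n' ↔
      kp δ (v a) (v b) m m' = kp δ (v a) (v b) n n' := by
  rw [R.c2_eq a e.l b e.r e.u _ _ _ _ h1 h2 h3 h4]
  constructor
  · rintro ⟨k, e1, e2⟩
    simp only [kp]
    linear_combination dot δ (v b) * e1 - dot δ (v a) * e2
  · intro h
    obtain ⟨k, hk⟩ := (R.cl_eq a e.l _ _ h1 h3).1 ((R.cl_iff B e h1 h2 h3 h4).2 (by simp [h]))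
    refine ⟨k, by linear_combination hk, mul_left_cancel₀ (B.ne a e.l) ?_⟩
    simp only [kp] at h
    linear_combination dot δ (v b) * hk - h

end Rod

namespace Lb

variable {I : Type} {S : Set I} {v : I → Z2} {δ : Z2} {L : I → Type} (B : Lb S v δ L)
  (A : ∀ i, Hf (L i))

/-- the object at a vertex -/
abbrev ob (i : I) : Ob := (A i).ob (B.pos i) (B.φ i)

variable {A} (R : Rod S v δ A) {a b : I}

theorem ch_iff (e : Eg S v a b) {κ : ℤ} :
    Ch (B.ob A a) (B.ob A b) κ ↔ Even (κ + dot δ (v a) * dot δ (v b)) := by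
  show Even (κ + (B.P a : ℤ) * B.P b) ↔ _
  rw [B.hP a e.l, B.hP b e.r, Int.natCast_natAbs, Int.natCast_natAbs]
  simp only [parity_simps, even_abs]

/-- `κ` names a class on the edge -/
def Va (a b : I) (κ : ℤ) : Prop := Eg S v a b ∧ ∃ z : ℤ × ℤ, Even (z.1 + R.ε a) ∧
  Even (z.2 + R.ε b) ∧ kp δ (v a) (v b) z.1 z.2 = κ

open Classical in
/-- the family of an edge -/
def fam (a b : I) : Fam (B.ob A a) (B.ob A b) where
  F κ := if h : Va R a b κ then R.F (R.c2 a b h.2.choose.1 h.2.choose.2) else 0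
  s κ := if h : Va R a b κ then (B.φ a).symm (R.cl a h.2.choose.1) else 0
  t κ := if h : Va R a b κ then (B.φ b).symm (R.cl b h.2.choose.2) else 0
  dg κ := dgk (sq δ (v a) (v b)) κ
  map κ x y hy := by
    by_cases h : Va R a b κ
    · simp only [dif_pos h] at hy ⊢
      have := R.map a h.1.l b h.1.r h.1.u _ _ h.2.choose_spec.1 h.2.choose_spec.2.1 x y
        ((B.φ a).apply_symm_apply _ ▸ hy :)
      rw [h.2.choose_spec.2.2] at this
      exact ((B.φ b).apply_symm_apply (R.cl b h.2.choose.2)).symm ▸ this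
    · simp only [dif_neg h]
      exact zero_mem _
  off κ s x y hs hy := by
    by_cases h : Va R a b κ
    · simp only [dif_pos h] at hs ⊢
      exact R.off a h.1.l b h.1.r h.1.u _ _ h.2.choose_spec.1 h.2.choose_spec.2.1 (B.φ a s) x
        (fun e => hs ((B.φ a).eq_symm_apply.2 e)) y hy
    · simp only [dif_neg h]
      rfl
  U κ y := by
    by_cases h : Va R a b κ
    · simp only [dif_pos h]
      exact R.U a h.1.l b h.1.r h.1.u _ y
    · simp only [dif_neg h]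
      exact (map_zero _).symm
  fin y := by
    by_cases e : Eg S v a b
    · refine Set.Finite.of_finite_image (f := fun κ => if h : Va R a b κ then
        R.c2 a b h.2.choose.1 h.2.choose.2 else R.c2 a b 0 0)
        ((R.fin a e.l b e.r e.u y).subset ?_) fun κ h1 κ' h2 h3 => ?_
      · rintro _ ⟨κ, hκ, rfl⟩
        by_cases h : Va R a b κ
        · simpa only [mem_support, dif_pos h] using hκ
        · simp [dif_neg h] at hκ
      · have h : Va R a b κ := by_contra fun h => by simp [dif_neg h] at h1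
        have h' : Va R a b κ' := by_contra fun h => by simp [dif_neg h] at h2
        simp only [dif_pos h, dif_pos h'] at h3
        rw [← h.2.choose_spec.2.2, ← h'.2.choose_spec.2.2]
        exact (R.c2_iff B e h.2.choose_spec.1 h.2.choose_spec.2.1 h'.2.choose_spec.1
          h'.2.choose_spec.2.1).1 h3
    · refine Set.finite_empty.subset fun κ hκ => hκ ?_
      simp only [dif_neg fun h : Va R a b κ => e h.1]
      rfl

/-- `f` is the family of the edge `(a, b)`, indexed by `η` times the value of the class -/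
structure Spec (a b : I) (η : ℤ) (f : Fam (B.ob A a) (B.ob A b)) : Prop where
  e : Eg S v a b
  sg : Sg η
  F : ∀ m m', Even (m + R.ε a) → Even (m' + R.ε b) →
    f.F (η * kp δ (v a) (v b) m m') = R.F (R.c2 a b m m')
  s : ∀ m m', Even (m + R.ε a) → Even (m' + R.ε b) →
    f.s (η * kp δ (v a) (v b) m m') = (B.φ a).symm (R.cl a m)
  t : ∀ m m', Even (m + R.ε a) → Even (m' + R.ε b) →
    f.t (η * kp δ (v a) (v b) m m') = (B.φ b).symm (R.cl b m')
  z : ∀ κ, ¬Even (κ + dot δ (v a) * dot δ (v b)) → f.F κ = 0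
  dg : ∀ κ, f.dg κ = dgk (sq δ (v a) (v b)) κ

theorem spec (e : Eg S v a b) : B.Spec R a b 1 (B.fam R a b) where
  e := e
  sg := sg_one
  F m m' h1 h2 := by
    have h : Va R a b (kp δ (v a) (v b) m m') := ⟨e, (m, m'), h1, h2, rfl⟩
    simp only [one_mul, fam, dif_pos h]
    rw [(R.c2_iff B e h.2.choose_spec.1 h.2.choose_spec.2.1 h1 h2).2 h.2.choose_spec.2.2]
  s m m' h1 h2 := by
    have h : Va R a b (kp δ (v a) (v b) m m') := ⟨e, (m, m'), h1, h2, rfl⟩
    simp only [one_mul, fam, dif_pos h]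
    rw [(R.cl_iff B e h.2.choose_spec.1 h.2.choose_spec.2.1 h1 h2).2
      (by rw [h.2.choose_spec.2.2]; simp)]
  t m m' h1 h2 := by
    have h : Va R a b (kp δ (v a) (v b) m m') := ⟨e, (m, m'), h1, h2, rfl⟩
    simp only [one_mul, fam, dif_pos h]
    rw [(R.cl_iff' B e h.2.choose_spec.1 h.2.choose_spec.2.1 h1 h2).2
      (by rw [h.2.choose_spec.2.2]; simp)]
  z κ h := dif_neg fun ⟨_, _, h1, h2, h3⟩ => h (h3 ▸ R.par B e h1 h2)
  dg _ := rfl

namespace Spec

variable {B R} {η : ℤ} {f : Fam (B.ob A a) (B.ob A b)} (h : B.Spec R a b η f)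
include h

theorem neg : B.Spec R a b (-η) f.neg where
  e := h.e
  sg := h.sg.neg
  F m m' h1 h2 := by rw [← h.F m m' h1 h2, neg_mul]; exact congrArg f.F (neg_neg _)
  s m m' h1 h2 := by rw [← h.s m m' h1 h2, neg_mul]; exact congrArg f.s (neg_neg _)
  t m m' h1 h2 := by rw [← h.t m m' h1 h2, neg_mul]; exact congrArg f.t (neg_neg _)
  z κ hκ := h.z (-κ) fun e => hκ (by simpa using sg_one.neg.even e)
  dg κ := (h.dg (-κ)).trans (by simp [dgk])

theorem ex {κ : ℤ} (hκ : Even (κ + dot δ (v a) * dot δ (v b))) :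
    ∃ m m', Even (m + R.ε a) ∧ Even (m' + R.ε b) ∧ η * kp δ (v a) (v b) m m' = κ := by
  obtain ⟨m, m', h1, h2, e⟩ := R.exists_kp B h.e (h.sg.even hκ)
  exact ⟨m, m', h1, h2, by rw [e, ← mul_assoc, h.sg.sq, one_mul]⟩

theorem dvd_iff {x y z : ℤ} : η * x ≡ η * y [ZMOD 2 * (z.natAbs : ℤ)] ↔ 2 * z ∣ x - y := by
  rw [Int.modEq_iff_dvd, Int.natCast_natAbs, show 2 * |z| = |2 * z| by rw [abs_mul, abs_two],
    abs_dvd, ← mul_sub, dvd_sub_comm (a := 2 * z) (b := x)]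
  rcases h.sg with rfl | rfl
  · rw [one_mul]
  · rw [neg_one_mul, dvd_neg]

theorem lat : f.Lat where
  cop := by
    show Nat.Coprime (B.P a) (B.P b)
    rw [B.hP a h.e.l, B.hP b h.e.r]
    exact Int.isCoprime_iff_gcd_eq_one.1 (h.e.u.cop B.cop)
  par κ hκ := h.z κ fun e => hκ ((B.ch_iff h.e).2 e)
  hs κ κ' h1 h2 := by
    obtain ⟨m, m', a1, a2, rfl⟩ := h.ex ((B.ch_iff h.e).1 h1)
    obtain ⟨n, n', a3, a4, rfl⟩ := h.ex ((B.ch_iff h.e).1 h2)
    rw [h.s _ _ a1 a2, h.s _ _ a3 a4, (B.φ a).symm.apply_eq_iff_eq, R.cl_iff B h.e a1 a2 a3 a4,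
      ← h.dvd_iff, ← B.hP a h.e.l]
  ht κ κ' h1 h2 := by
    obtain ⟨m, m', a1, a2, rfl⟩ := h.ex ((B.ch_iff h.e).1 h1)
    obtain ⟨n, n', a3, a4, rfl⟩ := h.ex ((B.ch_iff h.e).1 h2)
    rw [h.t _ _ a1 a2, h.t _ _ a3 a4, (B.φ b).symm.apply_eq_iff_eq, R.cl_iff' B h.e a1 a2 a3 a4,
      ← h.dvd_iff, ← B.hP b h.e.r]

theorem abs_sq : |sq δ (v a) (v b)| = (B.P a : ℤ) * B.P b := by
  rw [B.hP a h.e.l, B.hP b h.e.r, Int.natCast_natAbs, Int.natCast_natAbs, sq, abs_mul, abs_mul]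
  rcases h.e.u with e | e <;> simp [e]

theorem dgk_sg (s κ : ℤ) : dgk s (η * κ) = dgk s κ := by
  rcases h.sg with rfl | rfl <;> simp [dgk]

theorem isNeg (hs : sq δ (v a) (v b) < 0) : f.Neg where
  toLat := h.lat
  dg κ := by
    have e : (sq δ (v a) (v b) : ℚ) = -((B.P a : ℚ) * B.P b) := by
      have := h.abs_sq
      rw [abs_of_neg hs] at this
      exact_mod_cast (neg_eq_iff_eq_neg.1 this)
    rw [h.dg, dgk, e, Int.sign_eq_neg_one_of_neg hs, div_neg]
    show _ = (1 - (κ : ℚ) ^ 2 / ((B.P a : ℚ) * B.P b)) / 4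
    push_cast
    ring
  tow κ hκ := by
    obtain ⟨m, m', a1, a2, rfl⟩ := h.ex ((B.ch_iff h.e).1 hκ)
    rw [h.F _ _ a1 a2, h.s _ _ a1 a2, h.t _ _ a1 a2, h.dg, h.dgk_sg]
    refine (A a).ob_tow (B.pos a) (B.φ a) (B.pos b) (B.φ b) _ _ _ _ ?_ ?_ ?_ <;>
      simp only [Equiv.apply_symm_apply]
    exacts [R.map a h.e.l b h.e.r h.e.u m m' a1 a2, R.w_neg h.e hs a1 a2,
      R.neg a h.e.l b h.e.r h.e.u hs m m' a1 a2]

theorem isPos (hs : 0 < sq δ (v a) (v b)) : f.Pos where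
  toLat := h.lat
  dg κ := by
    have e : (sq δ (v a) (v b) : ℚ) = (B.P a : ℚ) * B.P b := by
      have := h.abs_sq
      rw [abs_of_pos hs] at this
      exact_mod_cast this
    rw [h.dg, dgk, e, Int.sign_eq_one_of_pos hs]
    show _ = ((κ : ℚ) ^ 2 / ((B.P a : ℚ) * B.P b) - 5) / 4
    push_cast
    ring
  tow κ := by
    by_cases hκ : Even (κ + dot δ (v a) * dot δ (v b))
    · obtain ⟨m, m', a1, a2, rfl⟩ := h.ex hκ
      obtain ⟨N, hN⟩ := R.pos a h.e.l b h.e.r h.e.u hs m m' a1 a2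
      rw [h.F _ _ a1 a2, h.s _ _ a1 a2]
      refine ⟨N, fun x hx => hN x hx _ ?_⟩
      simp only [Equiv.apply_symm_apply]
      exact (A a).e_mem _ x
    · exact ⟨0, fun x _ => by rw [h.z κ hκ]; rfl⟩

theorem tot (y : (A a).H) : f.tot y = ∑ᶠ d : R.C a b, R.F d y := by
  choose m m' a1 a2 e using R.c2_surj a h.e.l b h.e.r h.e.u
  have hi : Injective fun d => η * kp δ (v a) (v b) (m d) (m' d) := fun d d' hd => by
    rw [← e d, ← e d', R.c2_iff B h.e (a1 d) (a2 d) (a1 d') (a2 d')]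
    exact mul_left_cancel₀ (by rcases h.sg with rfl | rfl <;> simp) hd
  have hs : support (fun κ => f.F κ y) ⊆ Set.range fun d => η * kp δ (v a) (v b) (m d) (m' d) :=
    fun κ hκ => by
      obtain ⟨n, n', b1, b2, rfl⟩ := h.ex (κ := κ) (by_contra fun hn => hκ (by
        show f.F κ y = 0
        rw [h.z κ hn]; rfl))
      exact ⟨R.c2 a b n n', congrArg (η * ·)
        ((R.c2_iff B h.e (a1 _) (a2 _) b1 b2).1 (e _))⟩
  rw [Fam.tot_apply, ← Set.indicator_eq_self.2 hs, ← finsum_mem_def, finsum_mem_range hi]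
  exact finsum_congr fun d => by rw [h.F _ _ (a1 d) (a2 d), e]

end Spec

end Lb

end Crest.Agent.X212.Rw22
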