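import Crest.Agent.X212.Rw22.Tri
import Crest.Agent.X212.Pos17.Far
import Crest.Agent.X212.Lens8.Sharp

/-!
# Row 212, layer S (helper22): the Farey system of a rod theory
-/

set_option autoImplicit false

open Module Function

noncomputable section

namespace Crest.Agent.X212.Rw22

open Bor5 Win22 Pos17

theorem ev_add {e a : ℤ} (h : Even (e + a)) (u j : ℤ) : Even (e + 2 * u * j + a) := by
  obtain ⟨k, hk⟩ := h
  exact ⟨k + u * j, by linear_combination hk⟩

namespace Rod

variable {I : Type} {S : Set I} {v : I → Z2} {δ : Z2} {L : I → Type} {A : ∀ i, Hf (L i)}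
  (R : Rod S v δ A) {i : I} (hi : i ∈ S) {P : ℕ} (h0 : 0 < P) (hP : P = (dot δ (v i)).natAbs)
  {e u : ℤ} (he : Even (e + R.ε i)) (hu : IsCoprime u (dot δ (v i)))
include hi h0 hP he

theorem cl_val (j : ℤ) : R.cl i (e + 2 * u * (j : ZMod P).val) = R.cl i (e + 2 * u * j) := by
  have : NeZero P := ⟨h0.ne'⟩
  refine (R.cl_eq i hi _ _ (ev_add he _ _) (ev_add he _ _)).2 ?_
  rw [ZMod.val_intCast, show e + 2 * u * (j % P) - (e + 2 * u * j) = 2 * (u * (j % P - j)) by ring]
  refine mul_dvd_mul_left 2 (Dvd.dvd.mul_left ?_ u)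
  rw [← Int.natAbs_dvd, ← hP]
  exact Int.dvd_sub_self_of_emod_eq rfl

/-- labels that are affine in the order -/
def mkφ : ZMod P ≃ L i :=
  Equiv.ofBijective (fun j => R.cl i (e + 2 * u * j.val)) ⟨fun j j' h => by
    have : NeZero P := ⟨h0.ne'⟩
    have h1 := (R.cl_eq i hi _ _ (ev_add he _ _) (ev_add he _ _)).1 h
    rw [show e + 2 * u * (j.val : ℤ) - (e + 2 * u * j'.val) = 2 * (u * (j.val - j'.val)) by ring,
      mul_dvd_mul_iff_left two_ne_zero] at h1
    have h2 := hu.symm.dvd_of_dvd_mul_left h1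
    rw [← Int.natAbs_dvd, ← hP, ← ZMod.intCast_eq_intCast_iff_dvd_sub] at h2
    simpa using h2.symm, fun s => by
    obtain ⟨m, ⟨n, hn⟩, rfl⟩ := R.cl_surj i hi s
    obtain ⟨a, b, hab⟩ := hu
    obtain ⟨k, hk⟩ := id he
    refine ⟨(a * (n - k) : ℤ), (R.cl_val hi h0 hP he _).trans ((R.cl_eq i hi _ _
      (ev_add he _ _) ⟨n, hn⟩).2 ⟨-(b * (n - k)), ?_⟩)⟩
    linear_combination hk - hn + 2 * (n - k) * hab⟩

theorem mkφ_int (j : ℤ) : R.mkφ hi h0 hP he hu (j : ZMod P) = R.cl i (e + 2 * u * j) :=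
  R.cl_val hi h0 hP he j

end Rod

theorem dotK (i : Vx) : dot (0, 1) (vK i) = i.1.1 := by simp [dot, vK]

/-- the sphere -/
def inf : Vx := ⟨(1, 0), sl_inf⟩

open Classical in
/-- the vertex of a slope -/
def nz (p q : ℤ) : Vx := if h : Sl p q then ⟨(p, q), h⟩ else inf

theorem nz_eq {p q : ℤ} (h : Sl p q) : nz p q = ⟨(p, q), h⟩ := dif_pos h

theorem nz_val {p q : ℤ} (h : Sl p q) : (nz p q).1 = (p, q) := by rw [nz_eq h]

theorem vz {p q : ℤ} (h : Sl p q) : vK (nz p q) = (q, p) := by rw [nz_eq h]; rfl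

theorem dz {p q : ℤ} (h : Sl p q) : dot (0, 1) (vK (nz p q)) = p := by rw [dotK, nz_val h]

theorem step_aux {a b p q p' q' k : ℤ} (h1 : Even (a * p' - b * p + p * p'))
    (h2 : Odd (q * p' - p * q')) (h3 : Odd p) (h4 : Even (1 - q + k * p + a)) :
    Even (1 - q' + k * p' + b) := by
  rw [← Int.not_even_iff_odd] at h2 h3
  simp only [← ZMod.intCast_eq_zero_iff_even] at *
  push_cast at *
  generalize (a : ZMod 2) = a, (b : ZMod 2) = b, (p : ZMod 2) = p, (q : ZMod 2) = q,
    (p' : ZMod 2) = p', (q' : ZMod 2) = q', (k : ZMod 2) = k at *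
  rcases k_cases p with rfl | rfl
  · exact (h3 rfl).elim
  rcases k_cases a with rfl | rfl <;> rcases k_cases b with rfl | rfl <;>
    rcases k_cases q with rfl | rfl <;> rcases k_cases p' with rfl | rfl <;>
    rcases k_cases q' with rfl | rfl <;> rcases k_cases k with rfl | rfl <;>
    revert h1 h2 h4 <;> decide

namespace InK

variable (D : InK)

theorem Ppos (i : Vx) : 0 < i.1.1.natAbs := Int.natAbs_pos.2 i.2.1

/-- provisional labels -/
def lb0 : Lb Set.univ vK (0, 1) D.L where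
  cop := isCoprime_one_right
  ne i _ := by rw [dotK]; exact i.2.1
  P i := i.1.1.natAbs
  pos := Ppos
  hP i _ := by rw [dotK]
  φ i := D.R.mkφ (u := 1) trivial (Ppos i) (by rw [dotK]) ⟨_, rfl⟩ isCoprime_one_left

/-- the normalisation of the orders -/
def k : ℤ := D.R.ε inf + 1

theorem step {a b : Vx} (h : Uni (vK a) (vK b)) (ha : Odd a.1.1)
    (h4 : Even (1 - a.1.2 + D.k * a.1.1 + D.R.ε a)) : Even (1 - b.1.2 + D.k * b.1.1 + D.R.ε b) := by
  have := D.R.par D.lb0 ⟨trivial, trivial, h⟩ (⟨_, rfl⟩ : Even (D.R.ε a + D.R.ε a))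
    (⟨_, rfl⟩ : Even (D.R.ε b + D.R.ε b))
  rw [kp, dotK, dotK] at this
  refine step_aux this ?_ ha h4
  rcases h with h | h <;> rw [show a.1.2 * b.1.1 - a.1.1 * b.1.2 = _ from h] <;> decide

theorem adm (i : Vx) : Even (1 - i.1.2 + D.k * i.1.1 + D.R.ε i) := by
  have h0 : Even (1 - inf.1.2 + D.k * inf.1.1 + D.R.ε inf) :=
    ⟨D.R.ε inf + 1, by simp only [k, inf]; ring⟩
  obtain ⟨⟨p, q⟩, h⟩ := i
  obtain ⟨n, hn⟩ : ∃ n : ℕ, q < n := ⟨q.toNat + 1, by omega⟩
  induction n generalizing p q with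
  | zero => exact absurd h.2.1 (by simpa using hn)
  | succ n ih =>
    rcases eq_or_lt_of_le h.2.1 with h1 | hq
    · obtain rfl : q = 0 := h1.symm
      rcases sl_zero h with rfl | rfl
      · exact h0
      · exact D.step (a := ⟨(1, 1), sl_one one_ne_zero⟩) (.inr rfl) odd_one
          (D.step (a := inf) (.inr rfl) odd_one h0)
    obtain ⟨a, b, s, u, l⟩ : ∃ a b, Sl a b ∧ Uni (b, a) (q, p) ∧ b < q := by
      rcases lt_or_gt_of_ne h.1 with hp | hp
      · obtain ⟨a, b, e, l⟩ := exists_dn h hp hq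
        exact ⟨a, b, ed_l e, .inl (by simp only [dt]; linarith [e.2.2.2]), l⟩
      · obtain ⟨a, b, e, l⟩ := exists_up h hp hq
        exact ⟨a, b, ed_r e, .inr (by simp only [dt]; linarith [e.2.2.2]), l⟩
    simp only at hq hn
    rcases Int.even_or_odd a with ha | ha
    · have u' : Uni (q - b, p - a) (q, p) := by
        unfold Uni dt at *
        simp only at *
        rcases u with u | u
        · right; linarith
        · left; linarith
      have hp : Odd p := by
        rw [← Int.not_even_iff_odd]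
        intro hp
        have : Even (dt (b, a) (q, p)) := (hp.mul_left _).sub (ha.mul_right _)
        rcases u with u | u <;> rw [u] at this <;> exact absurd this (by decide)
      have hb : b ≠ 0 := by
        rintro rfl
        rcases sl_zero s with rfl | rfl <;> exact absurd ha (by decide)
      have ho : Odd (p - a) := hp.sub_even ha
      have s' : Sl (p - a) (q - b) := ⟨fun e => by rw [e] at ho; exact absurd ho (by decide),
        by omega, by
        have := Uni.cop (δ := (0, 1)) isCoprime_one_right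
          (a := (q - b, p - a)) (b := (q, p)) u'
        rcases u' with u' | u'
        · exact ⟨-q, p, by simp only [dt] at u'; linarith⟩
        · exact ⟨q, -p, by simp only [dt] at u'; linarith⟩⟩
      exact D.step (a := ⟨(p - a, q - b), s'⟩) u' ho
        (ih _ _ s' (by have := s.2.1; push_cast at hn; omega))
    · exact D.step (a := ⟨(a, b), s⟩) u ha (ih _ _ s (by push_cast at hn; omega))

/-- the labels: the class `j` has order `2 j + 1 - q + k p` -/
def lb : Lb Set.univ vK (0, 1) D.L :=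
  { cop := D.lb0.cop
    ne := D.lb0.ne
    P := fun i => i.1.1.natAbs
    pos := Ppos
    hP := D.lb0.hP
    φ := fun i => D.R.mkφ (u := 1) trivial (Ppos i) (D.lb0.hP i trivial) (D.adm i)
      isCoprime_one_left }

theorem adz {p q : ℤ} (h : Sl p q) (j : ℤ) :
    Even (2 * j + 1 - q + D.k * p + D.R.ε (nz p q)) := by
  obtain ⟨n, hn⟩ := D.adm (nz p q)
  rw [nz_val h] at hn
  exact ⟨n + j, by linear_combination hn⟩

theorem φz {p q : ℤ} (h : Sl p q) (j : ℤ) :
    (D.lb.φ (nz p q)).symm (D.R.cl (nz p q) (2 * j + 1 - q + D.k * p)) = j := by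
  rw [Equiv.symm_apply_eq]
  refine Eq.trans ?_ (D.R.mkφ_int trivial (Ppos _) (D.lb0.hP _ trivial) (D.adm _)
    isCoprime_one_left j).symm
  rw [nz_val h]
  congr 1
  ring

/-- the objects -/
abbrev Y (p q : ℤ) : Ob := D.lb.ob D.A (nz p q)

theorem uniz {p q p' q' : ℤ} (e : Ed p q p' q') : Uni (vK (nz p q)) (vK (nz p' q')) := by
  rw [vz (ed_l e), vz (ed_r e)]
  exact .inl (by simp only [dt]; linarith [e.2.2.2])

theorem trz {p q p' q' : ℤ} (e : Ed p q p' q') :
    Tr (vK (nz p q)) (vK (nz (p + p') (q + q'))) (vK (nz p' q')) 1 1 := by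
  rw [vz (ed_l e), vz (ed_r e), vz (ed_r (ed_ml e))]
  exact ⟨sg_one, sg_one, by simp, by simp only [one_smul, dt]; linarith [e.2.2.2]⟩

/-- the Farey system; `F` is any choice of families that is the right one on edges -/
def far (F : ∀ a b : Vx, Fam (D.lb.ob D.A a) (D.lb.ob D.A b))
    (hF : ∀ a b, Uni (vK a) (vK b) → D.lb.Spec D.R a b 1 (F a b)) : Far where
  Y := D.Y
  F p q p' q' := F (nz p q) (nz p' q')
  hP p q h := by
    show (nz p q).1.1.natAbs = _
    rw [nz_val h]
  inf p hp := by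
    have h : Sl p 0 := by
      rcases hp with rfl | rfl
      exacts [sl_inf, sl_inf.neg]
    have := D.sph (nz p 0) (by rw [nz_val h])
    exact pure_of _ (fun _ => 0) (fun s => this.1 _) fun s => this.2 _
  neg p q p' q' e := (hF _ _ (uniz e)).isNeg (by
    rw [sq, dz (ed_l e), dz (ed_r e), vz (ed_l e), vz (ed_r e), dt]
    have := e.1
    have h2 : q * p' - p * q' = 1 := by linarith [e.2.2.2]
    simp only [h2]
    linarith)
  lab p q p' q' e j j' := by
    have e0 : kap p q p' q' j j' = 1 * kp (0, 1) (vK (nz p q)) (vK (nz p' q'))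
        (2 * j + 1 - q + D.k * p) (2 * j' + 1 - q' + D.k * p') := by
      rw [kp, dz (ed_l e), dz (ed_r e), kap]
      ring
    exact ⟨((hF _ _ (uniz e)).s' (D.adz (ed_l e) j) (D.adz (ed_r e) j') e0).trans (D.φz (ed_l e) j),
      ((hF _ _ (uniz e)).t' (D.adz (ed_l e) j) (D.adz (ed_r e) j') e0).trans (D.φz (ed_r e) j')⟩
  tri p q p' q' a b e ha hb := by
    subst ha hb
    refine Lb.Spec.tri (trz e) ?_ sg_one (hF _ _ (trz e).uni) (hF _ _ (trz e).rot.uni)
      (hF _ _ (trz e).rot.rot.uni)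
    rw [dz (ed_l e), dz (ed_r e), one_mul, one_mul]
    exact e.1
  bu1 p q p' q' a b e ha hb κ c hc := by
    subst ha hb
    refine (hF _ _ (trz e).uni).bu (hF _ _ (trz e).rot.uni) (hF _ _ (uniz e)) (trz e) hc ?_ ?_
    · rw [dz (ed_l e)]; ring
    · rw [dz (ed_r e)]; ring
  bu2 p q p' q' a b e ha hb κ := by
    subst ha hb
    refine (hF _ _ (trz e).rot.uni).bu (hF _ _ (trz e).rot.rot.uni) (hF _ _ (trz e).uni.symm)
      (trz e).rot sg_one.neg ?_ ?_
    · rw [dz (ed_r (ed_ml e))]; ring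
    · rw [dz (ed_l e)]; ring
  bu3 p q p' q' a b e ha hb κ := by
    subst ha hb
    refine (hF _ _ (trz e).rot.rot.uni).bu (hF _ _ (trz e).uni) (hF _ _ (trz e).rot.uni.symm)
      (trz e).rot.rot sg_one.neg ?_ ?_
    · rw [dz (ed_r e)]; ring
    · rw [dz (ed_r (ed_ml e))]; ring

/-- the Farey system of the exterior of a knot -/
def far0 : Far := D.far (D.lb.fam D.R) fun _ _ h => D.lb.spec D.R ⟨trivial, trivial, h⟩

/-- isomorphic modules give isomorphic objects -/
theorem isoY {D' : InK} {p q p' q' : ℤ} (h : Sl p q) (h' : Sl p' q')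
    (i : HIso (D.A ⟨(p, q), h⟩) (D'.A ⟨(p', q'), h'⟩)) : Nonempty (Iso (D.Y p q) (D'.Y p' q')) := by
  unfold Y
  rw [nz_eq h, nz_eq h']
  exact ⟨Hf.obIso _ _ _ _ _ i.g i.τ i.map i.U⟩

end InK

theorem cg_far (S : Far) {p q : ℤ} (h : Sl p q) : (S.Y p q).Cg (S.D p q) := by
  obtain ⟨n, hn⟩ : ∃ n : ℕ, q ≤ n := ⟨q.toNat, Int.self_le_toNat _⟩
  induction n generalizing p q with
  | zero =>
    obtain rfl : q = 0 := le_antisymm hn h.2.1
    intro s
    exact ⟨0, by rw [(S.inf p (sl_zero h)).2]; simp [Dc, D_inf (sl_zero h)]⟩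
  | succ n ih =>
    rcases eq_or_lt_of_le h.2.1 with rfl | hq
    · exact ih h n.cast_nonneg
    rcases lt_or_gt_of_ne h.1 with hp | hp
    · obtain ⟨a, b, e, l⟩ := exists_dn h hp hq
      exact (S.neg _ _ _ _ e).cg_t (Lens8.sharp_ed S e) (ih (ed_l e) (by push_cast at hn; omega))
    · obtain ⟨a, b, e, l⟩ := exists_up h hp hq
      exact (S.neg _ _ _ _ e).cg_s (Lens8.sharp_ed S e) (ih (ed_r e) (by push_cast at hn; omega))

end Crest.Agent.X212.Rw22
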