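import Crest.Agent.X212.Rw22.Far

/-!
# Row 212, layer S (helper22): shear lines; the labels are pinned by the degrees modulo two
-/

set_option autoImplicit false

open Module Function

noncomputable section

namespace Crest.Agent.X212.Rw22

open Bor5 Win22 Pos17

theorem D_shift {p q : ℤ} (h : Sl p q) (j : ℤ) :
    ∃ n : ℤ, D p q (j + q) - D p q j = (2 * j + 1) / p - 1 + 2 * n := by
  obtain ⟨h0, hq, hc⟩ := h
  lift q to ℕ using hq
  rcases lt_or_gt_of_ne h0 with hp | hp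
  · obtain ⟨P, rfl⟩ : ∃ P : ℕ, p = -P := ⟨(-p).toNat, by omega⟩
    have hP : 0 < P := by omega
    have e := Lens8.dL_shift hP (Lens8.nat_cop (by simpa using hc.neg_left : IsCoprime (P : ℤ) q)) j
    have h1 : (P : ℚ) ≠ 0 := by positivity
    refine ⟨j / P + 1, ?_⟩
    rw [Lens8.D_nat' hP, Lens8.D_nat' hP,
      show -Lens8.dL P q (j + q) - -Lens8.dL P q j = -(Lens8.dL P q (j + q) - Lens8.dL P q j) by
      ring, e, Lens8.cast_emod]
    push_cast
    field_simp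
    ring
  · lift p to ℕ using hp.le
    have hP : 0 < p := by omega
    have e := Lens8.dL_shift hP (Lens8.nat_cop hc) j
    have h1 : (p : ℚ) ≠ 0 := by positivity
    refine ⟨-(j / p), ?_⟩
    rw [Lens8.D_nat hP, Lens8.D_nat hP, e, Lens8.cast_emod]
    push_cast
    field_simp
    ring

theorem cop_par {p q : ℤ} (h : IsCoprime p q) : Even (1 + p + q + p * q) := by
  obtain ⟨a, b, e⟩ := h
  rcases Int.even_or_odd p with ⟨x, rfl⟩ | ⟨x, rfl⟩ <;>
    rcases Int.even_or_odd q with ⟨y, rfl⟩ | ⟨y, rfl⟩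
  · have : 2 * (a * x + b * y) = 1 := by linarith
    omega
  · exact ⟨1 + 2 * x + y + 2 * x * y, by ring⟩
  · exact ⟨1 + x + 2 * y + 2 * x * y, by ring⟩
  · exact ⟨2 + 2 * x + 2 * y + 2 * x * y, by ring⟩

namespace Lb

variable {I : Type} {S : Set I} {v : I → Z2} {δ : Z2} {L : I → Type} (B : Lb S v δ L)
  {A : ∀ i, Hf (L i)} (R : Rod S v δ A) {a b c : I} {η : ℤ}

/-- the family of an edge with a sign -/
def famS (η : ℤ) (a b : I) : Fam (B.ob A a) (B.ob A b) :=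
  if η = 1 then B.fam R a b else (B.fam R a b).neg

theorem specS (h : Sg η) (e : Eg S v a b) : B.Spec R a b η (B.famS R η a b) := by
  rcases h with rfl | rfl
  · exact B.spec R e
  · exact (B.spec R e).neg

variable {B R} in
/-- the twist along a sphere of square `-2` -/
theorem Spec.swap {f₁ : Fam (B.ob A a) (B.ob A b)} {f₂ : Fam (B.ob A b) (B.ob A c)}
    (h₁ : B.Spec R a b η f₁) (h₂ : B.Spec R b c η f₂) (hv : v a + v c = (2 : ℤ) • v b)
    (hε : Even (R.ε a + R.ε c)) {κ n κ₁ κ₂ κ₃ : ℤ} (e1 : κ₁ = κ + 2 * n * dot δ (v b))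
    (e2 : κ₂ = κ + 2 * n * dot δ (v a)) (e3 : κ₃ = κ₁ - 2 * n * dot δ (v c)) :
    f₂.F κ₁ ∘ₗ f₁.F κ = f₂.F κ₃ ∘ₗ f₁.F κ₂ := by
  have hD : dot δ (v c) = 2 * dot δ (v b) - dot δ (v a) := by
    rw [← dot_smul, ← hv, dot_add]
    ring
  have s := h₁.sg.sq
  by_cases hκ : Even (κ + dot δ (v a) * dot δ (v b))
  · obtain ⟨x, y, hx, hy, rfl⟩ := h₁.ex hκ
    have hz : Even (2 * y - x - 2 * η * n + R.ε c) := by
      obtain ⟨i, hi⟩ := hx
      obtain ⟨j, hj⟩ := hε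
      exact ⟨y - η * n + j - i, by linarith⟩
    have hy' : Even (y - 2 * η * n + R.ε b) := by
      obtain ⟨i, hi⟩ := hy
      exact ⟨i - η * n, by linarith⟩
    rw [h₁.F x y hx hy, h₂.F' hy hz, h₁.F' hx hy', h₂.F' hy' hz]
    · exact R.refl a h₁.e.l b h₁.e.r c h₂.e.r h₁.e.u 1 1 2 1 sg_one sg_one rfl (by simpa using hv)
        x y _ _ hx hy hy' hz (by ring)
    · rw [e3, e1, kp, kp, hD]
      linear_combination (2 * n * dot δ (v b) - 2 * n * dot δ (v a)) * s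
    · rw [e2, kp, kp]
      linear_combination (-2 * n * dot δ (v a)) * s
    · rw [e1, kp, kp, hD]
      linear_combination (-2 * n * dot δ (v b)) * s
  · rw [h₁.z κ hκ, h₁.z κ₂, LinearMap.comp_zero, LinearMap.comp_zero]
    rintro ⟨k, hk⟩
    exact hκ ⟨k - n * dot δ (v a), by linarith⟩

end Lb

theorem none_mem (l : Ln) : none ∈ SL l := fun _ h => nomatch h

theorem mem_SL {l : Ln} {i : Vx} : some i ∈ SL l ↔ i.1.2 = l.1.1 ∧ i.1.1 % l.1.1 = l.1.2 :=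
  ⟨fun h => h i rfl, fun h _ e => Option.some.inj e ▸ h⟩

theorem dL_none (l : Ln) : dot (δL l) (vL l none) = -l.1.1 := by simp [dot, δL, vL]

theorem dL_some {l : Ln} {i : Vx} (h : some i ∈ SL l) : dot (δL l) (vL l (some i)) = i.1.1 := by
  simp only [dot, δL, vL, ← (mem_SL.1 h).2]
  linear_combination Int.mul_ediv_add_emod i.1.1 l.1.1

theorem uni_none (l : Ln) (i : Vx) : Uni (vL l (some i)) (vL l none) := .inr (by simp [dt, vL])

theorem vL_next {l : Ln} {i j : Vx} (h : j.1.1 = i.1.1 + l.1.1) :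
    vL l (some j) = (-(i.1.1 / l.1.1) - 1, 1) := by
  have : l.1.1 ≠ 0 := by have := l.2.1; omega
  simp only [vL, h, Int.add_ediv_of_dvd_right (dvd_refl _), Int.ediv_self this]
  congr 1
  ring

theorem tr_next {l : Ln} {i j : Vx} (h : j.1.1 = i.1.1 + l.1.1) :
    Tr (vL l (some i)) (vL l (some j)) (vL l none) 1 (-1) := by
  rw [vL_next h]
  exact ⟨sg_one, sg_one.neg, by simp [vL]; ring, by simp [vL, dt]⟩

/-- the vertex `r + n q` of the line -/
def lv (l : Ln) (n : ℤ) : Vx := ⟨(l.1.2 + n * l.1.1, l.1.1), sl_add ⟨fun h => by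
  have h1 := l.2.2.2.2
  have h2 := l.2.1
  rw [h, isCoprime_zero_left, Int.isUnit_iff] at h1
  omega, by have := l.2.1; omega, l.2.2.2.2⟩ l.2.1 n⟩

theorem lv_mem (l : Ln) (n : ℤ) : some (lv l n) ∈ SL l := mem_SL.2 ⟨rfl, by
  simp [lv, Int.emod_eq_of_lt l.2.2.1 l.2.2.2.1]⟩

theorem eq_lv {l : Ln} {i : Vx} (h : some i ∈ SL l) : i = lv l (i.1.1 / l.1.1) :=
  Subtype.ext (Prod.ext (by
    simp only [lv, ← (mem_SL.1 h).2]
    linear_combination -Int.mul_ediv_add_emod i.1.1 l.1.1) (mem_SL.1 h).1)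

namespace In

variable (D : In) (l : Ln)

/-- orders of the vertices of a line -/
def PL : Option Vx → ℕ
  | none => l.1.1.natAbs
  | some i => i.1.1.natAbs

/-- labels on a line, given labels of the third vertex -/
def lbL (φ : ZMod l.1.1.natAbs ≃ D.L₀ l) : Lb (SL l) (vL l) (δL l) (extL D.L (D.L₀ l)) where
  cop := l.2.2.2.2.symm.neg_left
  ne
    | none, _ => by rw [dL_none]; have := l.2.1; omega
    | some i, h => by rw [dL_some h]; exact i.2.1
  P := PL l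
  pos
    | none => Int.natAbs_pos.2 (by have := l.2.1; omega)
    | some i => InK.Ppos i
  hP
    | none, _ => by rw [dL_none, Int.natAbs_neg]; rfl
    | some i, h => by rw [dL_some h]; rfl
  φ
    | none => φ
    | some i => D.lb.φ i

theorem qpos : 0 < l.1.1.natAbs := Int.natAbs_pos.2 (by have := l.2.1; omega)

theorem qeq : l.1.1.natAbs = (dot (δL l) (vL l none)).natAbs := by rw [dL_none, Int.natAbs_neg]

/-- provisional labels -/
def lbL0 : Lb (SL l) (vL l) (δL l) (extL D.L (D.L₀ l)) :=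
  D.lbL l ((D.R' l).mkφ (u := 1) (none_mem l) (qpos l) (qeq l) ⟨_, rfl⟩ isCoprime_one_left)

variable {l}

theorem par_next {i j : Vx} (hi : some i ∈ SL l) (hj : some j ∈ SL l) (h : j.1.1 = i.1.1 + l.1.1) :
    Even ((D.R' l).ε (some i) + (D.R' l).ε none + (D.R' l).ε (some j) + 1) :=
  (D.R' l).par3 (D.lbL0 l) ⟨hi, hj, (tr_next h).uni⟩ ⟨hj, none_mem l, uni_none l j⟩
    ⟨none_mem l, hi, (uni_none l i).symm⟩ sg_one sg_one.neg (tr_next h).2.2.1

theorem par_lv (n : ℤ) : Even ((D.R' l).ε (some (lv l n)) + (D.R' l).ε (some (lv l 0)) +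
    n * ((D.R' l).ε none + 1)) := by
  have key : ∀ n : ℤ, Even ((D.R' l).ε (some (lv l n)) + (D.R' l).ε none +
      (D.R' l).ε (some (lv l (n + 1))) + 1) := fun n =>
    D.par_next (lv_mem l n) (lv_mem l (n + 1)) (by simp only [lv]; ring)
  induction n using Int.induction_on with
  | zero => exact ⟨(D.R' l).ε (some (lv l 0)), by ring⟩
  | succ n ih =>
    obtain ⟨a, ha⟩ := ih
    obtain ⟨b, hb⟩ := key n
    exact ⟨a + b - (D.R' l).ε (some (lv l n)), by linarith⟩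
  | pred n ih =>
    obtain ⟨a, ha⟩ := ih
    obtain ⟨b, hb⟩ := key (-n - 1)
    rw [sub_add_cancel] at hb
    exact ⟨a + b - (D.R' l).ε (some (lv l (-n))) - (D.R' l).ε none - 1, by linarith⟩

variable (l) in
/-- the sign of a line -/
def η : ℤ := (D.link l).choose

theorem η_sg : Sg (D.η l) := (D.link l).choose_spec.1

theorem link_int {i : Vx} (hi : some i ∈ SL l) {m m' : ℤ} (h1 : Even (m + D.R.ε i))
    (h2 : Even (m' + (D.R' l).ε (some i))) (h : (D.R' l).cl (some i) m' = D.R.cl i m) (t : ℤ) :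
    (D.R' l).cl (some i) (m' + 2 * t) = D.R.cl i (m + 2 * (D.η l * l.1.1) * t) := by
  have key : ∀ n : ℕ, (D.R' l).cl (some i) (m' + 2 * 1 * n) =
      D.R.cl i (m + 2 * (D.η l * l.1.1) * n) := fun n => by
    induction n with
    | zero => simpa using h
    | succ n ih =>
      have := (D.link l).choose_spec.2 i hi _ _ (ev_add h1 _ _) (ev_add h2 _ _) ih
      rw [show m' + 2 * 1 * ((n + 1 : ℕ) : ℤ) = m' + 2 * 1 * n + 2 by push_cast; ring, this]
      congr 1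
      simp only [η]
      push_cast
      ring
  obtain ⟨n, hn⟩ := Int.eq_ofNat_of_zero_le (Int.emod_nonneg t i.2.1)
  have e : t = i.1.1 * (t / i.1.1) + n := by rw [← hn, Int.mul_ediv_add_emod]
  refine Eq.trans ?_ ((key n).trans ?_)
  · refine ((D.R' l).cl_eq _ hi _ _ (by simpa using ev_add h2 1 t) (ev_add h2 _ _)).2
      ⟨t / i.1.1, ?_⟩
    rw [dL_some hi]
    linear_combination 2 * e
  · refine (D.R.cl_eq _ trivial _ _ (ev_add h1 _ _) (ev_add h1 _ _)).2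
      ⟨-(D.η l * l.1.1 * (t / i.1.1)), ?_⟩
    rw [dotK]
    linear_combination (-2 * (D.η l * l.1.1)) * e

/-- the class with label `j` -/
def cj (i : Vx) (j : ℤ) : D.L i := D.R.cl i (2 * j + 1 - i.1.2 + D.k * i.1.1)

theorem ad_cj (i : Vx) (j : ℤ) : Even (2 * j + 1 - i.1.2 + D.k * i.1.1 + D.R.ε i) := by
  have := D.adz i.2 j
  rwa [nz_eq i.2] at this

theorem φ_cj (i : Vx) (j : ℤ) : (D.lb.φ i).symm (D.cj i j) = j := by
  have := D.φz i.2 j
  rwa [nz_eq i.2] at this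

theorem w_cj (i : Vx) (j : ℤ) : ∃ n : ℤ, (D.A i).w (D.cj i j) = Bor5.D i.1.1 i.1.2 j + 2 * n := by
  obtain ⟨n, hn⟩ := cg_far D.far0 i.2 (j : ZMod _)
  replace hn := (Lens8.Dc_cast (D.far0.hP _ _ i.2) i.1.2 j).symm.trans hn
  have e : (D.far0.Y i.1.1 i.1.2).d (j : ZMod _) = (D.A (nz i.1.1 i.1.2)).d
      (D.lb.φ _ ((D.lb.φ _).symm (D.R.cl (nz i.1.1 i.1.2) (2 * j + 1 - i.1.2 + D.k * i.1.1)))) := by
    rw [D.φz i.2]
    rfl
  rw [Equiv.apply_symm_apply, nz_eq i.2] at e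
  refine ⟨-n - (D.A i).j0 (D.cj i j), ?_⟩
  rw [hn, e, Hf.d]
  push_cast
  simp only [cj]
  ring

theorem exists_base {i : Vx} (hi : some i ∈ SL l) : ∃ j, ∀ t,
    (D.R' l).cl (some i) ((D.R' l).ε (some i) + 2 * t) = D.cj i (j + D.η l * l.1.1 * t) := by
  obtain ⟨m, hm, e⟩ := D.R.cl_surj i trivial ((D.R' l).cl (some i) ((D.R' l).ε (some i)))
  obtain ⟨a, ha⟩ := id hm
  obtain ⟨b, hb⟩ := D.ad_cj i 0
  refine ⟨a - b, fun t => (D.link_int hi hm ⟨_, rfl⟩ e.symm t).trans ?_⟩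
  rw [cj]
  congr 1
  linear_combination ha - hb

theorem cj_congr (i : Vx) {j j' : ℤ} (h : i.1.1 ∣ j - j') : D.cj i j = D.cj i j' := by
  refine (D.R.cl_eq i trivial _ _ (D.ad_cj i j) (D.ad_cj i j')).2 ?_
  obtain ⟨k, hk⟩ := h
  exact ⟨k, by rw [dotK]; linear_combination 2 * hk⟩

/-- the relation between the two kinds of orders at a vertex -/
def Pin (l : Ln) (i : Vx) : Prop := ∀ m' j, Even (m' + (D.R' l).ε (some i)) →
  2 * i.1.1 ∣ D.η l * l.1.1 * m' + ((D.R' l).ε none + 1) * i.1.1 - (2 * j + 1 - l.1.1) →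
  (D.R' l).cl (some i) m' = D.cj i j

theorem pin_of {i : Vx} {j₀ : ℤ} (h : ∀ t,
    (D.R' l).cl (some i) ((D.R' l).ε (some i) + 2 * t) = D.cj i (j₀ + D.η l * l.1.1 * t))
    (h' : 2 * i.1.1 ∣ D.η l * l.1.1 * (D.R' l).ε (some i) + ((D.R' l).ε none + 1) * i.1.1 -
      (2 * j₀ + 1 - l.1.1)) : D.Pin l i := by
  rintro m' j ⟨a, ha⟩ ⟨b, hb⟩
  obtain ⟨c, hc⟩ := h'
  have e : m' = (D.R' l).ε (some i) + 2 * (a - (D.R' l).ε (some i)) := by linarith
  rw [e, h]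
  refine D.cj_congr i ⟨b - c, mul_left_cancel₀ two_ne_zero ?_⟩
  linear_combination hb - hc - D.η l * l.1.1 * e

theorem pin_edge {i j : Vx} (hi : some i ∈ SL l) (hj : some j ∈ SL l) (h : j.1.1 = i.1.1 + l.1.1)
    (hs : 0 < i.1.1 * j.1.1) : D.Pin l i ∧ D.Pin l j := by
  obtain ⟨a, ha⟩ := D.exists_base hi
  obtain ⟨b, hb⟩ := D.exists_base hj
  have s := D.η_sg (l := l) |>.sq
  have eg : Eg (SL l) (vL l) (some i) (some j) := ⟨hi, hj, (tr_next h).uni⟩
  have hsq : sq (δL l) (vL l (some i)) (vL l (some j)) = -(i.1.1 * j.1.1) := by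
    rw [sq, (tr_next h).dt_eq, dL_some hi, dL_some hj]
    ring
  have key : ∀ t u : ℤ, ∃ n : ℤ, Bor5.D j.1.1 l.1.1 (b + D.η l * l.1.1 * u) =
      Bor5.D i.1.1 l.1.1 (a + D.η l * l.1.1 * t) + dgk (-(i.1.1 * j.1.1))
        (((D.R' l).ε (some i) + 2 * t) * j.1.1 - ((D.R' l).ε (some j) + 2 * u) * i.1.1) + 2 * n := by
    intro t u
    obtain ⟨k, hk⟩ := (D.R' l).w_neg eg (by rw [hsq]; linarith)
      (m := (D.R' l).ε (some i) + 2 * t) (m' := (D.R' l).ε (some j) + 2 * u)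
      ⟨(D.R' l).ε (some i) + t, by ring⟩ ⟨(D.R' l).ε (some j) + u, by ring⟩
    rw [ha, hb, hsq, kp, dL_some hi, dL_some hj] at hk
    obtain ⟨n1, h1⟩ := D.w_cj i (a + D.η l * l.1.1 * t)
    obtain ⟨n2, h2⟩ := D.w_cj j (b + D.η l * l.1.1 * u)
    rw [(mem_SL.1 hi).1] at h1
    rw [(mem_SL.1 hj).1] at h2
    have hk' : (D.A j).w (D.cj j (b + D.η l * l.1.1 * u)) =
      (D.A i).w (D.cj i (a + D.η l * l.1.1 * t)) + _ + 2 * k := hk
    exact ⟨k + n1 - n2, by push_cast; linarith⟩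
  obtain ⟨n1, e1⟩ := key 0 0
  obtain ⟨n2, e2⟩ := key (D.η l) (D.η l)
  obtain ⟨n3, e3⟩ := D_shift ((mem_SL.1 hi).1 ▸ i.2 : Sl i.1.1 l.1.1) a
  obtain ⟨n4, e4⟩ := D_shift ((mem_SL.1 hj).1 ▸ j.2 : Sl j.1.1 l.1.1) b
  have e0 : D.η l * l.1.1 * D.η l = l.1.1 := by linear_combination l.1.1 * s
  simp only [mul_zero, add_zero, e0] at e1 e2
  set κ := (D.R' l).ε (some i) * j.1.1 - (D.R' l).ε (some j) * i.1.1 with hκ
  have e5 : ((D.R' l).ε (some i) + 2 * D.η l) * j.1.1 - ((D.R' l).ε (some j) + 2 * D.η l) * i.1.1 =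
      κ + 2 * D.η l * l.1.1 := by rw [hκ, h]; ring
  rw [e5] at e2
  have p0 : (i.1.1 : ℚ) ≠ 0 := by exact_mod_cast i.2.1
  have p1 : (j.1.1 : ℚ) ≠ 0 := by exact_mod_cast j.2.1
  have sq' : (D.η l : ℚ) * D.η l = 1 := by exact_mod_cast s
  have e6 : (2 * b + 1) * i.1.1 - (2 * a + 1) * j.1.1 + l.1.1 * (D.η l * κ + l.1.1) =
      2 * (n2 - n1 + n3 - n4) * (i.1.1 * j.1.1) := by
    have : ((2 * b + 1 : ℚ)) / j.1.1 - (2 * a + 1) / i.1.1 +
        l.1.1 * (D.η l * κ + l.1.1) / (i.1.1 * j.1.1) = 2 * (n2 - n1 + n3 - n4) := by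
      simp only [dgk] at e1 e2
      push_cast at e1 e2
      rw [div_neg] at e1 e2
      linear_combination e2 - e1 + e3 - e4 - (l.1.1 : ℚ) ^ 2 / (i.1.1 * j.1.1) * sq'
    field_simp at this
    have h2 : (((2 * b + 1) * i.1.1 - (2 * a + 1) * j.1.1 + l.1.1 * (D.η l * κ + l.1.1) : ℤ) : ℚ) =
        ((2 * (n2 - n1 + n3 - n4) * (i.1.1 * j.1.1) : ℤ) : ℚ) := by
      push_cast
      linear_combination this
    exact_mod_cast h2
  obtain ⟨y, hy⟩ := D.par_next hi hj h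
  obtain ⟨z, hz⟩ := D.η_sg (l := l) |>.even
    (m := (D.R' l).ε (some i) - (D.R' l).ε (some j)) ⟨_, rfl⟩
  obtain ⟨c, hc⟩ : Even (D.η l * κ - (1 - l.1.1)) := by
    obtain ⟨x, hx⟩ := (D.R' l).par (D.lbL0 l) eg (⟨_, rfl⟩ : Even ((D.R' l).ε (some i) + _))
      (⟨_, rfl⟩ : Even ((D.R' l).ε (some j) + _))
    rw [kp, dL_some hi, dL_some hj, ← hκ, h] at hx
    obtain ⟨w, hw⟩ := D.η_sg (l := l) |>.even (m := κ) ⟨_, rfl⟩
    obtain ⟨u, hu⟩ := cop_par ((mem_SL.1 hi).1 ▸ i.2.2.2 : IsCoprime i.1.1 l.1.1)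
    obtain ⟨r, hr⟩ := Int.even_mul_succ_self i.1.1
    exact ⟨w - x + u + r - 1 - i.1.1, by linear_combination hw - hx + hu + hr⟩
  have cop : IsCoprime i.1.1 j.1.1 := by
    have := eg.u.cop (D.lbL0 l).cop
    rwa [dL_some hi, dL_some hj] at this
  have e7 : (b - c) * i.1.1 - (a - c) * j.1.1 = (n2 - n1 + n3 - n4) * (i.1.1 * j.1.1) := by
    refine mul_left_cancel₀ two_ne_zero ?_
    linear_combination e6 - l.1.1 * hc + (1 + 2 * c) * h
  obtain ⟨u, hu⟩ : i.1.1 ∣ a - c := cop.dvd_of_dvd_mul_right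
    ⟨b - c - (n2 - n1 + n3 - n4) * j.1.1, by linear_combination -e7⟩
  obtain ⟨w, hw⟩ : j.1.1 ∣ b - c := cop.symm.dvd_of_dvd_mul_right
    ⟨a - c + (n2 - n1 + n3 - n4) * i.1.1, by linear_combination e7⟩
  refine ⟨D.pin_of ha ⟨y - z - (D.R' l).ε (some j) - u, ?_⟩,
    D.pin_of hb ⟨y - z - (D.R' l).ε (some j) - w, ?_⟩⟩
  · linear_combination hc - 2 * hu + i.1.1 * hy - i.1.1 * hz - D.η l * hκ -
      D.η l * (D.R' l).ε (some i) * h
  · linear_combination hc - 2 * hw + j.1.1 * hy - j.1.1 * hz - D.η l * hκ -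
      D.η l * (D.R' l).ε (some j) * h

theorem pin {i : Vx} (hi : some i ∈ SL l) : D.Pin l i := by
  have hq := l.2.1
  have e : l.1.2 + i.1.1 / l.1.1 * l.1.1 = i.1.1 := (congrArg (fun x : Vx => x.1.1) (eq_lv hi)).symm
  rcases lt_or_gt_of_ne i.2.1 with hp | hp
  · refine (D.pin_edge (lv_mem l (i.1.1 / l.1.1 - 1)) hi (by simp only [lv]; linarith) ?_).2
    exact mul_pos_of_neg_of_neg (by simp only [lv]; linarith) hp
  · refine (D.pin_edge hi (lv_mem l (i.1.1 / l.1.1 + 1)) (by simp only [lv]; linarith) ?_).1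
    exact mul_pos hp (by simp only [lv]; linarith)

end In

end Crest.Agent.X212.Rw22
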