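import Crest.Agent.X212.Rw22.Line
import Crest.Agent.X212.Rw22.In

/-!
# Row 212, layer S (helper22): the system of all fillings, from the rod theories
-/

set_option autoImplicit false

open Module Function

noncomputable section

namespace Crest.Agent.X212.Rw22

open Bor5 Win22 Pos17

theorem Lb.Spec.sgn {I : Type} {S : Set I} {v : I → Z2} {δ : Z2} {L : I → Type} {B : Lb S v δ L}
    {A : ∀ i, Hf (L i)} {R : Rod S v δ A} {a b : I} {η η' : ℤ} {f : Fam (B.ob A a) (B.ob A b)}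
    (h : B.Spec R a b η f) (e : η = η') : B.Spec R a b η' f := e ▸ h

open Classical in
/-- the line of a pair -/
def nzL (q r : ℤ) : Ln :=
  if h : 2 ≤ q ∧ 0 ≤ r ∧ r < q ∧ IsCoprime r q then ⟨(q, r), h⟩
  else ⟨(2, 1), le_rfl, zero_le_one, one_lt_two, isCoprime_one_left⟩

theorem nzL_eq (l : Ln) : nzL l.1.1 l.1.2 = l := dif_pos l.2

theorem nzL_val {p q r : ℤ} (h : Sl p q) (hq : 2 ≤ q) (hr : r = p % q) : (nzL q r).1 = (q, r) := by
  subst hr
  rw [nzL, dif_pos ⟨hq, Int.emod_nonneg _ (by omega), Int.emod_lt_of_pos _ (by omega), by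
    rw [Int.emod_def, sub_eq_add_neg, ← mul_neg]
    exact h.2.2.add_mul_left_left _⟩]

theorem nz_mem {p q r : ℤ} (h : Sl p q) (hq : 2 ≤ q) (hr : r = p % q) :
    some (nz p q) ∈ SL (nzL q r) := by
  rw [mem_SL, nzL_val h hq hr, nz_val h]
  exact ⟨rfl, hr.symm⟩

theorem sl_next {p q : ℤ} (h : Sl p q) (hq : 2 ≤ q) : Sl (p + q) q := by simpa using sl_add h hq 1

theorem nz_mem' {p q r : ℤ} (h : Sl p q) (hq : 2 ≤ q) (hr : r = p % q) :
    some (nz (p + q) q) ∈ SL (nzL q r) := nz_mem (sl_next h hq) hq (by simp [hr])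

theorem nz_next {p q r : ℤ} (h : Sl p q) (hq : 2 ≤ q) (hr : r = p % q) :
    (nz (p + q) q).1.1 = (nz p q).1.1 + (nzL q r).1.1 := by
  rw [nz_val h, nz_val (sl_next h hq), nzL_val h hq hr]

/-- a Bezout coefficient of the line -/
def bza (l : Ln) : ℤ := l.2.2.2.2.choose

/-- the other one -/
def bzb (l : Ln) : ℤ := l.2.2.2.2.choose_spec.choose

theorem bz (l : Ln) : bza l * l.1.2 + bzb l * l.1.1 = 1 := l.2.2.2.2.choose_spec.choose_spec

namespace In

variable (D : In) (l : Ln)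

/-- the order of the class `0` of the third vertex -/
def eL : ℤ := (D.R' l).ε none * bzb l * l.1.1 +
  D.η l * bza l * (1 - l.1.1 - l.1.2 - l.1.1 * (D.R' l).ε (some (lv l 0)))

theorem eL_ev : Even (D.eL l + (D.R' l).ε none) := by
  obtain ⟨x, hx⟩ := (D.R' l).par (D.lbL0 l) ⟨lv_mem l 0, none_mem l, uni_none l _⟩
    (⟨_, rfl⟩ : Even ((D.R' l).ε (some (lv l 0)) + _)) (⟨_, rfl⟩ : Even ((D.R' l).ε none + _))
  rw [kp, dL_some (lv_mem l 0), dL_none] at hx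
  simp only [lv, zero_mul, add_zero] at hx
  obtain ⟨u, hu⟩ := cop_par l.2.2.2.2
  obtain ⟨w, hw⟩ := D.η_sg (l := l) |>.even
    (m := bza l * (1 - l.1.1 - l.1.2 - l.1.1 * (D.R' l).ε (some (lv l 0)))) ⟨_, rfl⟩
  refine ⟨w + (D.R' l).ε none + bza l * (-x - u + l.1.1 + l.1.2 - l.1.2 * (D.R' l).ε none), ?_⟩
  simp only [eL, lv, zero_mul, add_zero] at *
  linear_combination hw + (D.R' l).ε none * bz l - bza l * hx - bza l * hu

theorem uL_cop : IsCoprime (D.η l * bza l) (dot (δL l) (vL l none)) :=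
  ⟨D.η l * l.1.2, -bzb l, by
    rw [dL_none]
    linear_combination bz l + bza l * l.1.2 * (D.η_sg (l := l)).sq⟩

/-- the labels on a line -/
def BL : Lb (SL l) (vL l) (δL l) (extL D.L (D.L₀ l)) :=
  D.lbL l ((D.R' l).mkφ (none_mem l) (qpos l) (qeq l) (D.eL_ev l) (D.uL_cop l))

variable {l}

theorem lab_some {i : Vx} (hi : some i ∈ SL l) {m' j : ℤ} (h : Even (m' + (D.R' l).ε (some i)))
    (h' : 2 * i.1.1 ∣ D.η l * l.1.1 * m' + ((D.R' l).ε none + 1) * i.1.1 - (2 * j + 1 - l.1.1)) :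
    ((D.BL l).φ (some i)).symm ((D.R' l).cl (some i) m') = j := by
  rw [D.pin hi m' j h h']
  exact D.φ_cj i j

theorem lab_third {i : Vx} (hi : some i ∈ SL l) {m m' j : ℤ} (h : Even (m' + (D.R' l).ε (some i)))
    (h' : Even (m + (D.R' l).ε none))
    (e : D.η l * (m' * l.1.1 + m * i.1.1) = 2 * j + 1 - l.1.1 - i.1.1) :
    ((D.BL l).φ (some i)).symm ((D.R' l).cl (some i) m') = j ∧
      ((D.BL l).φ none).symm ((D.R' l).cl none m) = j := by
  have s := D.η_sg (l := l) |>.sq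
  constructor
  · obtain ⟨z, hz⟩ := (D.η_sg (l := l)).neg.even h'
    exact D.lab_some hi h ⟨z, by linear_combination e + i.1.1 * hz⟩
  · rw [Equiv.symm_apply_eq]
    refine Eq.trans ?_ ((D.R' l).mkφ_int (none_mem l) (qpos l) (qeq l) (D.eL_ev l)
      (D.uL_cop l) j).symm
    refine ((D.R' l).cl_eq _ (none_mem l) _ _ h' (ev_add (D.eL_ev l) _ _)).2 ?_
    have hn := D.par_lv (l := l) (i.1.1 / l.1.1)
    rw [← eq_lv hi] at hn
    have hp : l.1.2 + i.1.1 / l.1.1 * l.1.1 = i.1.1 :=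
      (congrArg (fun x : Vx => x.1.1) (eq_lv hi)).symm
    generalize i.1.1 / l.1.1 = n at *
    obtain ⟨x, hx⟩ := h
    obtain ⟨y, hy⟩ := h'
    obtain ⟨z, hz⟩ := hn
    obtain ⟨w, hw⟩ := (D.η_sg (l := l)).even
      (m := bza l * (n - (D.R' l).ε (some (lv l 0)))) ⟨_, rfl⟩
    rw [dL_none, eL]
    refine ⟨w + bzb l * ((D.R' l).ε none - y) + bza l * (x + n * y - z +
      (D.R' l).ε (some (lv l 0))) , ?_⟩
    linear_combination -l.1.1 * hw - l.1.1 * (bza l * n - bzb l) * hy - l.1.1 * bza l * hx +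
      l.1.1 * bza l * hz + D.η l * bza l * e + (D.η l + m) * bza l * hp -
      bza l * (m' * l.1.1 + m * i.1.1) * s - m * bz l

variable (l) in
/-- the families along a line -/
def lf (a b : Vx) : Fam (D.lb.ob D.A a) (D.lb.ob D.A b) :=
  (D.BL l).famS (D.R' l) (D.η l) (some a) (some b)

open Classical in
/-- the families between fillings -/
def F0 (a b : Vx) : Fam (D.lb.ob D.A a) (D.lb.ob D.A b) :=
  if Uni (vK a) (vK b) then D.lb.fam D.R a b else D.lf (nzL a.1.2 (a.1.1 % a.1.2)) a b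

theorem F0_uni (a b : Vx) (h : Uni (vK a) (vK b)) : D.lb.Spec D.R a b 1 (D.F0 a b) := by
  rw [F0, if_pos h]
  exact D.lb.spec D.R ⟨trivial, trivial, h⟩

theorem F0_ln {a b : Vx} (ha : some a ∈ SL l) (hb : some b ∈ SL l) (h : b.1.1 = a.1.1 + l.1.1) :
    (D.BL l).Spec (D.R' l) (some a) (some b) (D.η l) (D.F0 a b) := by
  have e : D.F0 a b = D.lf l a b := by
    rw [F0, if_neg, (mem_SL.1 ha).1, (mem_SL.1 ha).2, nzL_eq]
    have := l.2.1
    simp only [Uni, dt, vK, (mem_SL.1 ha).1, (mem_SL.1 hb).1, h]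
    rintro (h | h) <;> nlinarith
  rw [e]
  exact (D.BL l).specS (D.R' l) D.η_sg ⟨ha, hb, (tr_next h).uni⟩

variable (l) in
/-- the third vertex -/
abbrev Λ0 : Ob := (D.BL l).ob (extA D.A (D.Λ l)) none

variable (l) in
/-- the handle to the third vertex -/
def G0 (a : Vx) : Fam (D.lb.ob D.A a) (D.Λ0 l) :=
  (D.BL l).famS (D.R' l) (-D.η l) (some a) none

variable (l) in
/-- the handle from the third vertex -/
def G1 (a : Vx) : Fam (D.Λ0 l) (D.lb.ob D.A a) :=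
  (D.BL l).famS (D.R' l) (-D.η l) none (some a)

theorem G0_spec {a : Vx} (ha : some a ∈ SL l) :
    (D.BL l).Spec (D.R' l) (some a) none (-D.η l) (D.G0 l a) :=
  (D.BL l).specS (D.R' l) D.η_sg.neg ⟨ha, none_mem l, uni_none l a⟩

theorem G1_spec {a : Vx} (ha : some a ∈ SL l) :
    (D.BL l).Spec (D.R' l) none (some a) (-D.η l) (D.G1 l a) :=
  (D.BL l).specS (D.R' l) D.η_sg.neg ⟨none_mem l, ha, (uni_none l a).symm⟩

theorem labT0 {a b : Vx} (ha : some a ∈ SL l) (hb : some b ∈ SL l) (h : b.1.1 = a.1.1 + l.1.1)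
    (j : ℤ) : (D.F0 a b).s (2 * j + 1 - l.1.1) = j ∧ (D.F0 a b).t (2 * j + 1 - l.1.1) = j := by
  have sp := D.F0_ln ha hb h
  obtain ⟨m, m', h1, h2, e⟩ := sp.ex (κ := 2 * j + 1 - l.1.1) (by
    rw [dL_some ha, dL_some hb, h]
    obtain ⟨u, hu⟩ := cop_par ((mem_SL.1 ha).1 ▸ a.2.2.2 : IsCoprime a.1.1 l.1.1)
    obtain ⟨r, hr⟩ := Int.even_mul_succ_self a.1.1
    exact ⟨j + u + r - l.1.1 - a.1.1, by linear_combination hu + hr⟩)
  obtain ⟨y, hy⟩ := D.par_next ha hb h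
  obtain ⟨x, hx⟩ := D.η_sg (l := l) |>.even h2
  obtain ⟨z, hz⟩ := D.η_sg (l := l) |>.neg.even h1
  have e' := e
  rw [kp, dL_some ha, dL_some hb] at e'
  refine ⟨(sp.s' h1 h2 e.symm).trans (D.lab_some ha h1
    ⟨x + y + z - (D.R' l).ε (some a) - (D.R' l).ε (some b), ?_⟩),
    (sp.t' h1 h2 e.symm).trans (D.lab_some hb h2
    ⟨x + y + z - (D.R' l).ε (some a) - (D.R' l).ε (some b), ?_⟩)⟩
  · linear_combination e' + a.1.1 * (hx + hy + hz) - D.η l * m * h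
  · linear_combination e' + b.1.1 * (hx + hy + hz) - D.η l * m' * h

theorem par_third {a : Vx} (ha : some a ∈ SL l) (j : ℤ) :
    Even (2 * j + 1 - l.1.1 - a.1.1 + a.1.1 * -l.1.1) := by
  obtain ⟨u, hu⟩ := cop_par ((mem_SL.1 ha).1 ▸ a.2.2.2 : IsCoprime a.1.1 l.1.1)
  exact ⟨j + 1 - u, by linear_combination -hu⟩

theorem sG0 {a : Vx} (ha : some a ∈ SL l) (j : ℤ) :
    (D.G0 l a).s (2 * j + 1 - l.1.1 - a.1.1) = j ∧ (D.G0 l a).t (2 * j + 1 - l.1.1 - a.1.1) = j := by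
  have sp := D.G0_spec ha
  obtain ⟨m', m, h1, h2, e⟩ := sp.ex (κ := 2 * j + 1 - l.1.1 - a.1.1) (by
    rw [dL_some ha, dL_none]
    exact par_third ha j)
  have e' := e
  rw [kp, dL_some ha, dL_none] at e'
  have := D.lab_third ha h1 h2 (j := j) (by linear_combination e')
  exact ⟨(sp.s' h1 h2 e.symm).trans this.1, (sp.t' h1 h2 e.symm).trans this.2⟩

theorem sG1 {a : Vx} (ha : some a ∈ SL l) (j : ℤ) :
    (D.G1 l a).s (a.1.1 - (2 * j + 1 - l.1.1)) = j ∧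
      (D.G1 l a).t (a.1.1 - (2 * j + 1 - l.1.1)) = j := by
  have sp := D.G1_spec ha
  obtain ⟨m, m', h1, h2, e⟩ := sp.ex (κ := a.1.1 - (2 * j + 1 - l.1.1)) (by
    rw [dL_some ha, dL_none]
    obtain ⟨u, hu⟩ := par_third ha j
    exact ⟨-u - a.1.1 * l.1.1, by linear_combination -hu⟩)
  have e' := e
  rw [kp, dL_some ha, dL_none] at e'
  have := D.lab_third ha h2 h1 (j := j) (by linear_combination -e')
  exact ⟨(sp.s' h1 h2 e.symm).trans this.2, (sp.t' h1 h2 e.symm).trans this.1⟩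

section

variable {a b : Vx} (ha : some a ∈ SL l) (hb : some b ∈ SL l) (h : b.1.1 = a.1.1 + l.1.1)
include ha hb h

theorem pp0 (hp : 0 < a.1.1) : Tri (D.F0 a b) (D.G0 l b) (D.G1 l a) := by
  refine Lb.Spec.tri (B := D.BL l) (R := D.R' l) (tr_next h) ?_ D.η_sg
    ((D.F0_ln ha hb h).sgn (by ring)) ((D.G0_spec hb).sgn (by ring)) ((D.G1_spec ha).sgn (by ring))
  have := l.2.1
  rw [dL_some ha, dL_none]
  nlinarith

theorem nn0 (hp : b.1.1 < 0) : Tri (D.G1 l a).neg (D.F0 a b) (D.G0 l b).neg := by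
  refine Lb.Spec.tri (B := D.BL l) (R := D.R' l) (tr_next h).rot.rot ?_ D.η_sg
    ((D.G1_spec ha).neg.sgn (by ring)) ((D.F0_ln ha hb h).sgn (by ring))
    ((D.G0_spec hb).neg.sgn (by ring))
  have := l.2.1
  rw [dL_some hb, dL_none]
  nlinarith

theorem np0 (hp : a.1.1 < 0) (hp' : 0 < b.1.1) : Tri (D.G0 l b).neg (D.G1 l a) (D.F0 a b) := by
  refine Lb.Spec.tri (B := D.BL l) (R := D.R' l) (tr_next h).rot ?_ D.η_sg.neg
    ((D.G0_spec hb).neg.sgn (by ring)) ((D.G1_spec ha).sgn (by ring))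
    ((D.F0_ln ha hb h).sgn (by ring))
  rw [dL_some ha, dL_some hb]
  nlinarith

theorem swap0 {c : Vx} (hc : some c ∈ SL l) (h' : c.1.1 = b.1.1 + l.1.1) {κ n κ₁ κ₂ κ₃ : ℤ}
    (e1 : κ₁ = κ + 2 * n * b.1.1) (e2 : κ₂ = κ + 2 * n * a.1.1) (e3 : κ₃ = κ₁ - 2 * n * c.1.1) :
    (D.F0 b c).F κ₁ ∘ₗ (D.F0 a b).F κ = (D.F0 b c).F κ₃ ∘ₗ (D.F0 a b).F κ₂ := by
  refine Lb.Spec.swap (D.F0_ln ha hb h) (D.F0_ln hb hc h') ?_ ?_ (n := n)
    (by rw [dL_some hb]; exact e1) (by rw [dL_some ha]; exact e2) (by rw [dL_some hc]; exact e3)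
  · have e1 := (tr_next h).2.2.1
    have e2 := (tr_next h').2.2.1
    simp only [one_smul, neg_smul] at e1 e2
    rw [two_smul]
    linear_combination e1 - e2
  · obtain ⟨x, hx⟩ := D.par_next ha hb h
    obtain ⟨y, hy⟩ := D.par_next hb hc h'
    exact ⟨x + y - (D.R' l).ε none - (D.R' l).ε (some b) - 1, by linarith⟩

end

theorem swap1 {p p' p'' : ℤ} (h0 : p ≠ 0) (h1 : p' ≠ 0) (h2 : p'' ≠ 0) (e : p' = p + 1)
    (e' : p'' = p' + 1) {κ n κ₁ κ₂ κ₃ : ℤ} (e1 : κ₁ = κ + 2 * n * p') (e2 : κ₂ = κ + 2 * n * p)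
    (e3 : κ₃ = κ₁ - 2 * n * p'') :
    (D.F0 (nz p' 1) (nz p'' 1)).F κ₁ ∘ₗ (D.F0 (nz p 1) (nz p' 1)).F κ =
      (D.F0 (nz p' 1) (nz p'' 1)).F κ₃ ∘ₗ (D.F0 (nz p 1) (nz p' 1)).F κ₂ := by
  refine Lb.Spec.swap (D.F0_uni _ _ ?_) (D.F0_uni _ _ ?_) ?_ ?_ (n := n)
    (by rw [dz (sl_one h1)]; exact e1) (by rw [dz (sl_one h0)]; exact e2)
    (by rw [dz (sl_one h2)]; exact e3)
  · rw [vz (sl_one h0), vz (sl_one h1)]
    exact .inl (by simp [dt, e])
  · rw [vz (sl_one h1), vz (sl_one h2)]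
    exact .inl (by simp [dt, e'])
  · rw [vz (sl_one h0), vz (sl_one h1), vz (sl_one h2), e', e]
    simp
    ring
  · obtain ⟨x, hx⟩ := D.adz (sl_one h0) 0
    obtain ⟨y, hy⟩ := D.adz (sl_one h2) 0
    exact ⟨x + y - D.k * p', by linear_combination hx + hy - D.k * e' + D.k * e⟩

/-- all fillings -/
def sys0 : Sys0 where
  toFar := D.far D.F0 D.F0_uni
  labT p q p' h hq e j := by
    subst e
    have := D.labT0 (nz_mem h hq rfl) (nz_mem' h hq rfl) (nz_next h hq rfl) j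
    rwa [nzL_val h hq rfl] at this
  swap p q p' p'' h hq e e' h1 h2 j c := by
    rcases eq_or_lt_of_le hq with rfl | hq
    · exact D.swap1 h.1 h1 h2 e e' (n := c) (by ring) (by ring) (by rw [e']; ring)
    · subst e e'
      have s := sl_next h hq
      have r : p % q = (p + q) % q := by simp
      exact D.swap0 (nz_mem h hq rfl) (nz_mem' h hq rfl) (nz_next h hq rfl) (nz_mem' s hq r)
        (nz_next s hq r) (n := c) (by rw [nz_val s]; ring) (by rw [nz_val h]; ring)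
        (by rw [nz_val (sl_next s hq)]; ring)
  Λ q r := D.Λ0 (nzL q r)
  G p q r := D.G0 (nzL q r) (nz p q)
  G' p q r := D.G1 (nzL q r) (nz p q)
  hΛ p q h hq := by
    obtain ⟨d, hd⟩ := D.pure (nzL q (p % q))
    refine ⟨?_, (pure_of (D.Λ0 _) (fun s => d ((D.BL _).φ none s)) (fun s => hd.1 _)
      fun s => hd.2 _).1⟩
    show (nzL q (p % q)).1.1.natAbs = _
    rw [nzL_val h hq rfl]
  sG p q r h hq e j := by
    have := D.sG0 (nz_mem h hq e) j
    rwa [nzL_val h hq e, nz_val h] at this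
  sG' p q r h hq e j := by
    have := D.sG1 (nz_mem h hq e) j
    rwa [nzL_val h hq e, nz_val h] at this
  pp p q p' r h hq e e' hp := by
    subst e
    exact D.pp0 (nz_mem h hq e') (nz_mem' h hq e') (nz_next h hq e') (by rwa [nz_val h])
  nn p q p' r h hq e e' hp := by
    subst e
    exact D.nn0 (nz_mem h hq e') (nz_mem' h hq e') (nz_next h hq e')
      (by rwa [nz_val (sl_next h hq)])
  np p q p' r h hq e e' hp hp' := by
    subst e
    exact D.np0 (nz_mem h hq e') (nz_mem' h hq e') (nz_next h hq e') (by rwa [nz_val h])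
      (by rwa [nz_val (sl_next h hq)])

end In

theorem alg : AlgStmt := fun H k hk => by
  obtain ⟨D, ⟨X, hX, hi⟩, h1, h2⟩ := H k hk
  refine ⟨D.sys0, ⟨X, hX, ?_⟩, fun p q q' h h' hp c => ?_, fun p q s h h' hp hs c => ?_⟩
  · show Nonempty (Iso X (D.lb.ob D.A (nz 1 4)))
    rw [nz_eq sl14]
    exact hi _ _ _
  · exact (h1 p q q' h h' hp c).elim (D.isoY h h')
  · exact (h2 p q s h h' hp hs c).elim (D.isoY h h'.neg)

end Crest.Agent.X212.Rw22
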